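import Vale.Agent.P277.H884.W.CoreReg

/-!
# P277, (WS): the contradiction along the singular flipped surfaces
-/

open scoped Manifold ContDiff ComplexOrder Topology
open Vale.Agent.P272.K Vale.Agent.P285.H281.FD Vale.Agent.P267.H175 Set Metric Filter

noncomputable section

namespace Vale.Agent.P277.H884.S

open Vale.Agent.P277.TX Vale.Agent.P277.H19 Vale.Agent.P277.H371 Vale.Agent.P277.H884.W

section
variable {Y : Type} [TopologicalSpace Y] [T2Space Y] [CompactSpace Y] [ChartedSpace (Cm 4) Y]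
  [IsManifold 𝓘(ℂ, Cm 4) ω Y] {X : CSp} {V : Set X.pt} {G : X.pt → Cm 4} {c : Cm 4} {r : ℝ}
  {d : ℕ} {lam : X.pt → ℂ} {θ : Cm 4 → ℂ} {N : ℕ} {s : Fin d → ℕ} {φ : Fin d → Cm 4 → X.pt}
  {w₁ : Cm 4} {O : Set Y} {v : Y → X.pt} {χ : Chart 4 Y → Cm 4 → Matrix (Fin 4) (Fin 4) ℂ}
  {γ : Fin d → Cm 4 → Y} {ch : Fin d → Chart 4 Y}

omit [T2Space Y] [CompactSpace Y] [IsManifold 𝓘(ℂ, Cm 4) ω Y] in
/-- local upper bound for the sum over the fibre -/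
theorem ph_bd (hv : IsOpenEmb X O v) (hc : IsCov X V G c r d lam θ) {ψ : Y → ℝ}
    (hψ : ∀ y ∈ O, v y ∈ V → ContinuousAt ψ y) {z : Cm 4} (hz : z ∈ ball c r)
    (hzO : ∀ x ∈ V, G x = z → x ∈ v '' O) :
    ∃ C : ℝ, ∀ᶠ w : Cm 4 in 𝓝 z, θ w ≠ 0 → Ph O v V G (fun _ => 1) ψ w ≤ C := by
  classical
  -- a bound on the fibre
  have hfin := (hc.finite z hz).1
  obtain ⟨y₀⟩ : Nonempty Y := by
    obtain ⟨x, hx, hxz⟩ := (hc.finite z hz).2
    obtain ⟨y, -, -⟩ := hzO x hx hxz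
    exact ⟨y⟩
  obtain ⟨M, hM⟩ : ∃ M : ℝ, ∀ x ∈ V, G x = z → ψ (hv.inv y₀ x) < M := by
    obtain ⟨M, hM⟩ := (hfin.image fun x => ψ (hv.inv y₀ x)).bddAbove
    refine ⟨M + 1, fun x hx hxz => ?_⟩
    have h1 : ψ (hv.inv y₀ x) ≤ M := hM ⟨x, ⟨hx, hxz⟩, rfl⟩
    linarith
  have hW : ∀ x ∈ V, G x = z → v '' {y | y ∈ O ∧ ψ y < M} ∈ 𝓝 x := by
    intro x hx hxz
    obtain ⟨y, hy, rfl⟩ := hzO x hx hxz
    have h1 : ψ y < M := by
      have h2 := hM _ hx hxz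
      rwa [hv.inv_apply y₀ hy] at h2
    have h2 := (hψ y hy hx).eventually_lt_const h1
    obtain ⟨U, hU, hUo, hyU⟩ := eventually_nhds_iff.1 (h2.and (hv.isOpen.mem_nhds hy))
    refine mem_of_superset ((hv.isOpenMap U (fun a ha => (hU a ha).2) hUo).mem_nhds ⟨y, hyU, rfl⟩) ?_
    exact image_mono fun a ha => ⟨(hU a ha).2, (hU a ha).1⟩
  refine ⟨Real.log (1 + d * Real.exp M), ?_⟩
  filter_upwards [cov_eventually hc hz hW, isOpen_ball.mem_nhds hz] with w hw hwb hθw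
  obtain ⟨x, hx⟩ := hc.enum w hwb hθw
  have h1 : ∀ k, ∃ y, (y ∈ O ∧ ψ y < M) ∧ v y = x k := fun k => by
    obtain ⟨g1, g2⟩ := (hx.2 (x k)).1 ⟨k, rfl⟩
    exact hw _ g1 g2
  choose y hy hyx using h1
  have hen : Enum V G w (fun k => v (y k)) := by
    have h2 : (fun k => v (y k)) = x := funext hyx
    rw [h2]; exact hx
  rw [Ph, finsum_enum hv (fun k => (hy k).1) hen]
  refine Real.log_le_log (by positivity) ?_
  have h2 : ∑ k, ‖(1 : ℂ)‖ ^ 2 * Real.exp (ψ (y k)) ≤ ∑ _k : Fin d, Real.exp M := by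
    refine Finset.sum_le_sum fun k _ => ?_
    rw [norm_one, one_pow, one_mul]
    exact Real.exp_le_exp.2 (hy k).2.le
  rw [Finset.sum_const, Finset.card_univ, Fintype.card_fin, nsmul_eq_mul] at h2
  linarith

/-- **[WS-1]** The contradiction for a good covering near a surface along which `X` may be singular. -/
theorem core_cov (hχ : IsKahler χ) (hv : IsOpenEmb X O v) (hO : DimLe X 2 (v '' O)ᶜ)
    (hc : IsCov X V G c r d lam θ) (h0 : w₁ 0 = 0) (hw₁ : bl w₁ ∈ ball c r)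
    (hθ : ∀ᶠ w in 𝓝 w₁, w 0 ≠ 0 → θ (bl w) ≠ 0) (hN : 1 ≤ N) (hs : ∀ k, 1 ≤ s k ∧ s k ∣ N)
    (hφ : ∀ k, ∀ᶠ w in 𝓝 w₁, ContinuousAt (φ k) w ∧ φ k w ∈ V ∧ G (φ k w) = pw (s k) w)
    (hE : ∀ᶠ w in 𝓝 w₁, w 0 ≠ 0 → Enum V G ![w 0 ^ N, w 1 * w 0 ^ N, w 2, w 3]
      (fun k => φ k ![w 0 ^ (N / s k), w 1, w 2, w 3]))
    (hγ : ∀ k, ContinuousAt (γ k) w₁) (hch : ∀ k, At (ch k) (γ k w₁))
    (han : ∀ k, AnalyticAt ℂ (fun w => ch k (γ k w)) w₁)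
    (hlift : ∀ k, ∀ᶠ w in 𝓝 w₁, φ k w ∈ v '' O → γ k w ∈ O ∧ v (γ k w) = φ k w)
    {κ : ℝ} (hκ : 0 < κ) (k₀ : Fin d)
    (hψ : ∀ δ : ℝ, 0 < δ → ∃ ψ : Y → ℝ, (∀ y ∈ O, v y ∈ V → ∀ e : Chart 4 Y, At e y →
      ContDiffAt ℝ 2 (fun z => ψ (e.symm z)) (e y) ∧
      (cHess (fun z => ψ (e.symm z)) (e y) + (δ : ℂ) • χ e (e y)).PosSemidef) ∧
      ∃ C, ∀ᶠ w in 𝓝 w₁, w 0 ≠ 0 → γ k₀ w ∈ O → κ * Real.log (1 / ‖w 0‖) - C ≤ ψ (γ k₀ w)) :
    False := by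
  have hs0 : (0 : ℝ) < s k₀ := by exact_mod_cast (hs k₀).1
  have hthin := stThin Y X O v hv hO V G c r d lam θ hc
  set E : Set (Cm 4) := G '' {x | x ∈ V ∧ ¬ ∃ y ∈ O, v y = x ∧ RankGe3 v G y} with hEdef
  obtain ⟨p1, p2, p3⟩ := H19.stPush Y χ hχ X O v hv V G c r d lam θ hc (G '' (V \ v '' O)) rfl
  have hsub : G '' (V \ v '' O) ⊆ E := by
    rintro _ ⟨x, ⟨hx, hx'⟩, rfl⟩
    refine ⟨x, ⟨hx, ?_⟩, rfl⟩
    rintro ⟨y, hy, hyx, -⟩
    exact hx' ⟨y, hy, hyx⟩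
  have hsub' : ball c r \ E ⊆ ball c r \ G '' (V \ v '' O) := fun z hz =>
    ⟨hz.1, fun h => hz.2 (hsub h)⟩
  have hOE : ∀ z, z ∉ E → ∀ x ∈ V, G x = z → x ∈ v '' O := by
    intro z hz x hx hxz
    by_contra hcon
    refine hz ⟨x, ⟨hx, ?_⟩, hxz⟩
    rintro ⟨y, hy, hyx, -⟩
    exact hcon ⟨y, hy, hyx⟩
  refine TD.stCoreX c r hc.pos θ hc.an hc.ne E hthin (pushH χ O v V G)
    (fun z hz hθz => p1 z (hsub' hz) hθz) (fun z hz => p2 z (hsub' hz))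
    (fun a ha hac has i j k => p3 a ha hac (has.trans hsub') i j k) w₁ h0 hw₁ ?_ hθ
    (κ / s k₀) (div_pos hκ hs0) ?_
  · obtain ⟨C, hC⟩ := pushH_le (L := (⟨Unit, fun _ => univ, fun _ _ _ => 1⟩ : Bd X.pt))
      (M := (⟨Unit, fun _ => univ, fun _ _ _ => 1⟩ : Bd Y)) (m := 0) (Q := 0)
      (T := fun _ _ _ => 1) (i₀ := ()) (K := 0) (e := ch) (μ := fun _ => ())
      (F := fun _ _ => 1) hχ hv hc.holo h0 hN hs hφ hE
      (fun k => ⟨hγ k, hch k, mem_univ _, han k, hlift k, analyticAt_const,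
        Eventually.of_forall fun w _ => by simp⟩)
    refine ⟨C, ?_⟩
    filter_upwards [hC] with w h1 hw hwE _
    exact h1 hw (hOE _ hwE)
  · intro δ hδ
    obtain ⟨ψ, hψ1, C, hψ2⟩ := hψ δ hδ
    refine ⟨Ph O v V G (fun _ => 1) ψ, ?_, ?_, ?_⟩
    · intro z hz hθz
      obtain ⟨D, ρb, hzD, hDs, hbr⟩ := exists_br hv hc hz.1 hθz (hOE z hz.2)
      refine Ph_psh hχ hv hc.holo hbr hzD hδ.le (fun _ => analyticAt_const) fun k' => ?_
      obtain ⟨g1, g2, g3⟩ := hbr.mem z hzD k'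
      exact branch_fun hχ (hbr.cont z hzD k') (hbr.an z hzD k') (fun e he => hψ1 _ g1 g2 e he)
    · intro z hz
      have hcont : ∀ y ∈ O, v y ∈ V → ContinuousAt ψ y := by
        intro y hy hyV
        have hat := at_chartAt y
        have h1 := (hψ1 y hy hyV _ hat).1.continuousAt
        have h2 : ContinuousAt (chartAt (Cm 4) y) y := (chartAt (Cm 4) y).continuousAt hat.2
        have h3 : ContinuousAt (fun y' => ψ ((chartAt (Cm 4) y).symm (chartAt (Cm 4) y y'))) y :=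
          ContinuousAt.comp (g := fun z => ψ ((chartAt (Cm 4) y).symm z)) h1 h2
        refine h3.congr ?_
        filter_upwards [(chartAt (Cm 4) y).open_source.mem_nhds hat.2] with y' hy'
        rw [(chartAt (Cm 4) y).left_inv hy']
      obtain ⟨C', hC'⟩ := ph_bd hv hc hcont hz.1 (hOE z hz.2)
      refine ⟨C', ?_⟩
      filter_upwards [hC'] with w h1 h2
      exact h1 h2.2
    · refine ⟨C, ?_⟩
      have hP : ∀ k, ∀ᶠ w in 𝓝 w₁, (k = k₀ → w 0 ≠ 0 → γ k₀ w ∈ O →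
          κ * Real.log (1 / ‖w 0‖) - C ≤ ψ (γ k₀ w)) ∧
          (φ k w ∈ v '' O → γ k w ∈ O ∧ v (γ k w) = φ k w) := by
        intro k
        filter_upwards [hψ2, hlift k] with w g1 g2
        exact ⟨fun _ => g1, g2⟩
      filter_upwards [wedge_pts hN hs h0 hE hP] with w d1 hw hwE
      obtain ⟨u, hu, hen⟩ := d1 hw
      have hφO : ∀ k, φ k (u k) ∈ v '' O := fun k => by
        obtain ⟨g1, g2⟩ := (hen.2 (φ k (u k))).1 ⟨k, rfl⟩
        exact hOE _ hwE _ g1 g2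
      have hy : ∀ k, γ k (u k) ∈ O ∧ v (γ k (u k)) = φ k (u k) := fun k =>
        (hu k).2.2.2 (hφO k)
      have hen' : Enum V G (bl w) (fun k => v (γ k (u k))) := by
        have h1 : (fun k => v (γ k (u k))) = fun k => φ k (u k) := funext fun k => (hy k).2
        rw [h1]; exact hen
      rw [Ph, finsum_enum hv (fun k => (hy k).1) hen']
      have h1 : Real.exp (ψ (γ k₀ (u k₀))) ≤
          1 + ∑ k, ‖(1 : ℂ)‖ ^ 2 * Real.exp (ψ (γ k (u k))) := by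
        have h2 := Finset.single_le_sum (f := fun k => ‖(1 : ℂ)‖ ^ 2 *
          Real.exp (ψ (γ k (u k)))) (fun _ _ => by positivity) (Finset.mem_univ k₀)
        simp only [norm_one, one_pow, one_mul] at h2 ⊢
        linarith
      have h2 := Real.log_le_log (Real.exp_pos _) h1
      rw [Real.log_exp] at h2
      have h3 := (hu k₀).2.2.1 rfl (hu k₀).2.1 (hy k₀).1
      have hsk : (s k₀ : ℝ) ≠ 0 := hs0.ne'
      have h7 : Real.log (1 / ‖u k₀ 0‖) = Real.log (1 / ‖w 0‖) / s k₀ := by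
        have h8 : ‖w 0‖ = ‖u k₀ 0‖ ^ s k₀ := by rw [← norm_pow, (hu k₀).1]
        rw [one_div, one_div, Real.log_inv, Real.log_inv, h8, Real.log_pow]
        field_simp
      rw [h7] at h3
      have h8 : κ * (Real.log (1 / ‖w 0‖) / s k₀) = κ / s k₀ * Real.log (1 / ‖w 0‖) := by ring
      rw [h8] at h3
      exact h3.trans h2

end

end Vale.Agent.P277.H884.S
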