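import Vale.Agent.P277.H884.S.Neg2

/-!
# P277, T6: the argument on a slice
-/

open scoped Manifold ContDiff ComplexOrder Topology
open Vale.Agent.P272.K Vale.Agent.P285.H281.FD Vale.Agent.P267.H175 Set Metric Filter

noncomputable section

namespace Vale.Agent.P277.H884.S

open Vale.Agent.P277.TX Vale.Agent.P277.H19 Vale.Agent.P277.H371

/-- functions take almost the same values on all sheets -/
theorem agree {X : CSp} {S V : Set X.pt} {G : X.pt → Cm 4} {c : Cm 4} {r : ℝ} {d : ℕ}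
    {lam : X.pt → ℂ} {θ : Cm 4 → ℂ}
    (hg : IsGood X S V G c r d lam θ) {a : Fin d → X.pt → ℂ}
    (ha : ∀ i, ∀ x ∈ V, X.Hol (a i) x) {w₁ : Cm 4} (h0 : w₁ 0 = 0)
    (hw₁ : bl w₁ ∈ ball c r) :
    ∃ C : ℝ, 0 ≤ C ∧ ∀ᶠ w in 𝓝 w₁, ∀ x ∈ V, ∀ y ∈ V, G x = bl w → G y = bl w →
      ∀ i, ‖a i x - a i y‖ ≤ C * ‖w 0‖ := by
  obtain ⟨-, p, hpV, hpG⟩ := hg.finite _ hw₁
  have hpS : p ∈ S := by
    rw [hg.memS p hpV, hpG]
    exact bl_zero h0
  choose β hβ1 hβ2 using fun i => exists_beta hg (ha i)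
  have hGan : ∀ i, X.Hol (fun y => β i (G y)) p := fun i =>
    hol_comp (f := fun j y => G y j) (G := β i) (fun j => hg.holo p hpV j)
      (hβ1 i _ (hg.maps p hpV))
  have hred : ∀ i, ∃ C : ℝ, ∀ᶠ y in 𝓝 p, ‖a i y - β i (G y)‖ ≤ C * (‖G y 0‖ + ‖G y 1‖) := by
    intro i
    refine hg.red p hpV hpS _ (hol_sub (ha i p hpV) (hGan i)) ?_
    filter_upwards [hg.isOpen.mem_nhds hpV] with y hy hyS
    rw [hβ2 i y hy hyS, sub_self]
  choose C hC using hred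
  set B : ℝ := ∑ i, |C i| with hB
  have hCB : ∀ i, C i ≤ B := fun i => (le_abs_self _).trans
    (Finset.single_le_sum (f := fun i => |C i|) (fun _ _ => abs_nonneg _) (Finset.mem_univ i))
  have hB0 : 0 ≤ B := Finset.sum_nonneg fun _ _ => abs_nonneg _
  have c1 : ∀ᶠ z in 𝓝 (bl w₁), ∀ y ∈ V, G y = z → y ∈ {y | ∀ i,
      ‖a i y - β i (G y)‖ ≤ C i * (‖G y 0‖ + ‖G y 1‖)} := by
    refine cov_eventually hg.toIsCov hw₁ ?_
    intro y hy hyG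
    rw [hg.uniq p hpV hpS y hy (by rw [hyG, hpG])]
    exact eventually_all.2 hC
  have c2 : ∀ᶠ w in 𝓝 w₁, ‖w 1‖ < ‖w₁ 1‖ + 1 :=
    ((continuous_apply (1 : Fin 4)).norm.continuousAt (x := w₁)).eventually_lt_const (by linarith)
  refine ⟨2 * (B * (‖w₁ 1‖ + 2)), by positivity, ?_⟩
  filter_upwards [continuous_bl.continuousAt.eventually c1, c2] with w d1 d2 x hx y hy hxG hyG i
  have h1 : ∀ x ∈ V, G x = bl w → ‖a i x - β i (bl w)‖ ≤ B * (‖w₁ 1‖ + 2) * ‖w 0‖ := by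
    intro x hx hxG
    have h2 := d1 x hx hxG i
    rw [hxG] at h2
    refine h2.trans ?_
    change C i * (‖w 0‖ + ‖w 0 * w 1‖) ≤ _
    rw [norm_mul]
    have h3 : ‖w 0‖ + ‖w 0‖ * ‖w 1‖ ≤ (‖w₁ 1‖ + 2) * ‖w 0‖ := by
      nlinarith [norm_nonneg (w 0), norm_nonneg (w 1)]
    calc C i * (‖w 0‖ + ‖w 0‖ * ‖w 1‖) ≤ B * (‖w 0‖ + ‖w 0‖ * ‖w 1‖) := by
          refine mul_le_mul_of_nonneg_right (hCB i) (by positivity)
      _ ≤ B * ((‖w₁ 1‖ + 2) * ‖w 0‖) := mul_le_mul_of_nonneg_left h3 hB0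
      _ = _ := by ring
  have h5 : a i x - a i y = (a i x - β i (bl w)) - (a i y - β i (bl w)) := by ring
  rw [h5]
  refine (norm_sub_le _ _).trans ?_
  have h6 := h1 x hx hxG
  have h7 := h1 y hy hyG
  linarith

/-- sums over the rotations -/
theorem rot_sum_bd {s : ℕ} (hs : 1 ≤ s) {e : ℂ → ℂ} (he : AnalyticAt ℂ e 0) :
    ∃ C : ℝ, 0 ≤ C ∧ ∀ᶠ t in 𝓝 (0 : ℂ),
      ‖∑ i ∈ Finset.range s, rt s ^ i * e (rt s ^ i * t)‖ ≤ C * ‖t‖ ^ (s - 1) := by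
  obtain ⟨p, hp⟩ := he
  obtain ⟨C, hC0, hC⟩ := (hp.isBigO_sub_partialSum_pow (s - 1)).exists_pos
  have hC' := hC.bound
  have hrot : ∀ i : ℕ, ∀ᶠ t in 𝓝 (0 : ℂ),
      ‖e (0 + rt s ^ i * t) - p.partialSum (s - 1) (rt s ^ i * t)‖ ≤ C * ‖t‖ ^ (s - 1) := by
    intro i
    have h1 : Tendsto (fun t : ℂ => rt s ^ i * t) (𝓝 0) (𝓝 0) := by
      have : ContinuousAt (fun t : ℂ => rt s ^ i * t) 0 := by fun_prop
      simpa using this.tendsto
    filter_upwards [h1.eventually hC'] with t ht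
    refine ht.trans (le_of_eq ?_)
    rw [norm_pow, norm_norm, norm_mul, norm_pow, norm_rt, one_pow, one_mul]
  refine ⟨s * C, by positivity, ?_⟩
  filter_upwards [(Finset.eventually_all (Finset.range s)).2 fun i _ => hrot i] with t ht
  have h2 : ∑ i ∈ Finset.range s, rt s ^ i * p.partialSum (s - 1) (rt s ^ i * t) = 0 := by
    have h4 : ∀ n ∈ Finset.range (s - 1), ∑ i ∈ Finset.range s, (rt s ^ (n + 1)) ^ i = 0 := by
      intro n hn
      rw [Finset.mem_range] at hn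
      have h5 := geom_sum_mul (rt s ^ (n + 1)) s
      rw [← pow_mul, mul_comm (n + 1) s, pow_mul, rt_pow hs, one_pow, sub_self] at h5
      rcases mul_eq_zero.1 h5 with h6 | h6
      · exact h6
      · exact absurd (sub_eq_zero.1 h6) ((rt_prim hs).pow_ne_one_of_pos_of_lt (by omega) (by omega))
    simp only [FormalMultilinearSeries.partialSum, FormalMultilinearSeries.apply_eq_pow_smul_coeff,
      Finset.mul_sum]
    rw [Finset.sum_comm]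
    refine Finset.sum_eq_zero fun n hn => ?_
    have h5 : ∀ i ∈ Finset.range s, rt s ^ i * ((rt s ^ i * t) ^ n • p.coeff n) =
        (t ^ n * p.coeff n) * (rt s ^ (n + 1)) ^ i := by
      intro i _
      rw [smul_eq_mul, mul_pow, ← pow_mul, ← pow_mul]
      have : rt s ^ ((n + 1) * i) = rt s ^ i * rt s ^ (i * n) := by
        rw [← pow_add]; congr 1; ring
      rw [this]; ring
    rw [Finset.sum_congr rfl h5, ← Finset.mul_sum, h4 n hn, mul_zero]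
  have h3 : ∑ i ∈ Finset.range s, rt s ^ i * e (rt s ^ i * t) =
      ∑ i ∈ Finset.range s, rt s ^ i * (e (0 + rt s ^ i * t) -
        p.partialSum (s - 1) (rt s ^ i * t)) := by
    simp only [mul_sub, Finset.sum_sub_distrib, h2, sub_zero, zero_add]
  rw [h3]
  refine (norm_sum_le _ _).trans ?_
  calc _ ≤ ∑ i ∈ Finset.range s, C * ‖t‖ ^ (s - 1) := by
        refine Finset.sum_le_sum fun i hi => ?_
        rw [norm_mul, norm_pow, norm_rt, one_pow, one_mul]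
        exact ht i hi
    _ = _ := by
        rw [Finset.sum_const, Finset.card_range, nsmul_eq_mul]; ring

theorem vec_zero {w₂ : Cm 4} (h0 : w₂ 0 = 0) : (![0, w₂ 1, w₂ 2, w₂ 3] : Cm 4) = w₂ := by
  ext i
  fin_cases i
  · exact h0.symm
  · rfl
  · rfl
  · rfl

theorem an_vec (w₂ : Cm 4) (t₀ : ℂ) :
    AnalyticAt ℂ (fun t : ℂ => (![t, w₂ 1, w₂ 2, w₂ 3] : Cm 4)) t₀ := by
  rw [analyticAt_pi_iff]
  intro i
  fin_cases i
  · exact analyticAt_id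
  · exact analyticAt_const
  · exact analyticAt_const
  · exact analyticAt_const

/-- the second sheet -/
theorem second {d s : ℕ} (hd : 2 ≤ d) {σ : Equiv.Perm (Fin d)} {k₀ : Fin d}
    (hs : s = Function.minimalPeriod σ k₀) (hs1 : 1 ≤ s) :
    (∀ t : ℂ, ∑ i ∈ Finset.range s, (rt s ^ i * t) ^ (s - 1) *
      (1 : Matrix (Fin d) (Fin d) ℂ) (σ^[i] k₀) k₀ = t ^ (s - 1)) ∧
    ∃ (l : Fin d) (η : ℂ), η ≠ 1 ∧ ∀ t : ℂ, ∑ i ∈ Finset.range s, (rt s ^ i * t) ^ (s - 1) *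
      (1 : Matrix (Fin d) (Fin d) ℂ) (σ^[i] k₀) l = η * t ^ (s - 1) := by
  have hinj : ∀ i < s, ∀ j < s, σ^[i] k₀ = σ^[j] k₀ → i = j := by
    intro i hi j hj hij
    rw [hs] at hi hj
    exact Function.iterate_injOn_Iio_minimalPeriod (f := σ) (x := k₀) hi hj hij
  have key : ∀ i₀ < s, ∀ t : ℂ, ∑ i ∈ Finset.range s, (rt s ^ i * t) ^ (s - 1) *
      (1 : Matrix (Fin d) (Fin d) ℂ) (σ^[i] k₀) (σ^[i₀] k₀) = (rt s ^ i₀ * t) ^ (s - 1) := by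
    intro i₀ hi₀ t
    rw [Finset.sum_eq_single i₀]
    · rw [Matrix.one_apply_eq, mul_one]
    · intro i hi hne
      rw [Matrix.one_apply_ne, mul_zero]
      exact fun h => hne (hinj i (Finset.mem_range.1 hi) i₀ hi₀ h)
    · intro h
      exact absurd (Finset.mem_range.2 hi₀) h
  refine ⟨fun t => ?_, ?_⟩
  · have h1 := key 0 hs1 t
    rw [pow_zero, one_mul] at h1
    exact h1
  · by_cases h2 : 2 ≤ s
    · refine ⟨σ^[1] k₀, rt s ^ (s - 1),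
        (rt_prim hs1).pow_ne_one_of_pos_of_lt (by omega) (by omega), fun t => ?_⟩
      rw [key 1 (by omega) t, pow_one, mul_pow]
    · have hs1' : s = 1 := by omega
      have : Nontrivial (Fin d) := Fin.nontrivial_iff_two_le.2 hd
      obtain ⟨l, hl⟩ := exists_ne k₀
      refine ⟨l, 0, zero_ne_one, fun t => ?_⟩
      rw [zero_mul, hs1', Finset.sum_range_one, Matrix.one_apply_ne, mul_zero]
      exact hl.symm

theorem slice_false {X : CSp} {S V : Set X.pt} {G : X.pt → Cm 4} {r : ℝ}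
    {d : ℕ} {lam : X.pt → ℂ} {θ : Cm 4 → ℂ} {n : ℕ} {ζ : Fin n → X.pt → ℂ}
    {a : Fin d → X.pt → ℂ} {b κ : Cm 4 → ℂ} {N : ℕ} {s : Fin d → ℕ} {σ : Equiv.Perm (Fin d)}
    {φ : Fin d → Cm 4 → X.pt} {w₁ : Cm 4}
    (h : Stp X S V G r d lam θ ζ a b κ N s σ φ w₁) (hd : 2 ≤ d) (k₀ : Fin d)
    {Nm : Fin d → X.pt → ℂ}
    (hNm : ∀ z ∈ ball (bl w₁) r, θ z ≠ 0 → ∀ x : Fin d → X.pt, Enum V G z x →
      ∀ k j, Nm j (x k) = (am a x).det * (am a x).adjugate k j)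
    {w₂ : Cm 4} (h0 : w₂ 0 = 0) (hw₂ : bl w₂ ∈ ball (bl w₁) r)
    (hθ : ∀ᶠ w in 𝓝 w₂, w 0 ≠ 0 → θ (bl w) ≠ 0)
    (henum : ∀ᶠ w in 𝓝 w₂, w 0 ≠ 0 → Enum V G ![w 0 ^ N, w 1 * w 0 ^ N, w 2, w 3]
      (fun k => φ k ![w 0 ^ (N / s k), w 1, w 2, w 3]))
    (hrot : ∀ k, ∀ᶠ w in 𝓝 w₂, w 0 ≠ 0 → φ (σ k) w = φ k ![rt (s k) * w 0, w 1, w 2, w 3])
    {E : Fin d → Cm 4 → ℂ} (hE : ∀ j, AnalyticAt ℂ (E j) w₂)
    (hEN : ∀ j, ∀ᶠ w in 𝓝 w₂, w 0 ≠ 0 →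
      Nm j (φ k₀ w) / κ (G (φ k₀ w)) * w 0 ^ (2 * s k₀ - 2) = E j w) : False := by
  obtain ⟨Ca, hCa0, hCa⟩ := agree h.good h.hola h0 hw₂
  set q : ℕ := s k₀ with hq
  have hs1 : 1 ≤ q := (h.s1 k₀).1
  obtain ⟨hv1, l', η, hη, hv2⟩ := second hd (σ := σ) (h.per k₀) hs1
  have hean : ∀ j, AnalyticAt ℂ (fun t : ℂ => E j ![t, w₂ 1, w₂ 2, w₂ 3]) 0 := fun j =>
    AnalyticAt.comp (g := E j) (by rw [vec_zero h0]; exact hE j) (an_vec w₂ 0)
  choose C hC0 hC using fun j => rot_sum_bd hs1 (hean j)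
  -- a common ball
  have hball : ∀ᶠ w in 𝓝 w₂, (w 0 ≠ 0 → θ (bl w) ≠ 0) ∧
      (w 0 ≠ 0 → Enum V G ![w 0 ^ N, w 1 * w 0 ^ N, w 2, w 3]
        (fun k => φ k ![w 0 ^ (N / s k), w 1, w 2, w 3])) ∧
      (∀ k, w 0 ≠ 0 → φ (σ k) w = φ k ![rt (s k) * w 0, w 1, w 2, w 3]) ∧
      (∀ j, w 0 ≠ 0 → Nm j (φ k₀ w) / κ (G (φ k₀ w)) * w 0 ^ (2 * q - 2) = E j w) ∧
      (∀ x ∈ V, ∀ y ∈ V, G x = bl w → G y = bl w → ∀ i, ‖a i x - a i y‖ ≤ Ca * ‖w 0‖) ∧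
      bl w ∈ ball (bl w₁) r :=
    hθ.and (henum.and ((eventually_all.2 hrot).and ((eventually_all.2 hEN).and (hCa.and
      (continuous_bl.continuousAt.eventually (isOpen_ball.mem_nhds hw₂))))))
  obtain ⟨ε', hε', hball'⟩ := Metric.eventually_nhds_iff_ball.1 hball
  set ε : ℝ := min ε' 1 with hεdef
  have hε : 0 < ε := lt_min hε' one_pos
  have hε1 : ε ≤ 1 := min_le_right _ _
  have hB := fun w (hw : w ∈ ball w₂ ε) => hball' w (ball_subset_ball (min_le_left _ _) hw)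
  set K : ℝ := ∑ j, C j * Ca with hK
  have hK0 : 0 ≤ K := Finset.sum_nonneg fun j _ => mul_nonneg (hC0 j) hCa0
  have hη' : 0 < ‖1 - η‖ := norm_pos_iff.2 (sub_ne_zero.2 hη.symm)
  -- choice of t
  have ht1 : ∀ᶠ t : ℂ in 𝓝 (0 : ℂ), ‖t‖ < ε ^ N := by
    have := (continuous_norm (E := ℂ)).continuousAt (x := 0)
    refine this.eventually_lt_const ?_
    show ‖(0 : ℂ)‖ < ε ^ N
    rw [norm_zero]; positivity
  have ht2 : ∀ᶠ t : ℂ in 𝓝 (0 : ℂ), K * ‖t‖ < ‖1 - η‖ := by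
    have : ContinuousAt (fun t : ℂ => K * ‖t‖) 0 := by fun_prop
    refine this.eventually_lt_const ?_
    show K * ‖(0 : ℂ)‖ < ‖1 - η‖
    rw [norm_zero, mul_zero]; exact hη'
  obtain ⟨t, ⟨⟨g1, g2⟩, g3⟩, ht0⟩ := ((eventually_nhdsWithin_of_eventually_nhds
    ((ht1.and ht2).and (eventually_all.2 hC))).and
    (self_mem_nhdsWithin (a := (0 : ℂ)) (s := {0}ᶜ))).exists
  have ht0 : t ≠ 0 := ht0
  -- the N-th root
  obtain ⟨q', hq'⟩ := (h.s1 k₀).2.2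
  have hN1 := h.N1
  have hq1 : 1 ≤ q' := by
    rcases Nat.eq_zero_or_pos q' with h' | h'
    · rw [h', mul_zero] at hq'; omega
    · exact h'
  have hNs : N / q = q' := by rw [hq']; exact Nat.mul_div_cancel_left q' hs1
  have hqN : q' ≤ N := by rw [hq']; exact Nat.le_mul_of_pos_left q' hs1
  obtain ⟨τ, hτ⟩ := IsAlgClosed.exists_pow_nat_eq t (n := q') (by omega)
  have hτ0 : τ ≠ 0 := by
    rintro rfl
    rw [zero_pow (by omega)] at hτ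
    exact ht0 hτ.symm
  have htε : ‖t‖ < ε := g1.trans_le (pow_le_of_le_one hε.le hε1 (by omega))
  have hτε : ‖τ‖ < ε := by
    have h4 : ‖τ‖ ^ q' < ε ^ q' := by
      rw [← norm_pow, hτ]
      exact g1.trans_le (pow_le_pow_of_le_one hε.le hε1 hqN)
    exact lt_of_pow_lt_pow_left₀ _ hε.le h4
  have hτN : τ ^ N = t ^ q := by rw [hq', mul_comm, pow_mul, hτ]
  have hw₂b : w₂ ∈ ball w₂ ε := mem_ball_self hε
  have hmem : ∀ u : ℂ, ‖u‖ < ε → (![u, w₂ 1, w₂ 2, w₂ 3] : Cm 4) ∈ ball w₂ ε := fun u hu =>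
    vec_mem_ball h0 hε hw₂b hu
  obtain ⟨-, en, -⟩ := hB _ (hmem τ hτε)
  set x : Fin d → X.pt := fun k => φ k ![τ ^ (N / s k), w₂ 1, w₂ 2, w₂ 3] with hx
  have hz : (![τ ^ N, w₂ 1 * τ ^ N, w₂ 2, w₂ 3] : Cm 4) = bl ![t ^ q, w₂ 1, w₂ 2, w₂ 3] := by
    rw [hτN]
    ext i
    fin_cases i
    · rfl
    · change w₂ 1 * t ^ q = t ^ q * w₂ 1
      ring
    · rfl
    · rfl
  have hen : Enum V G (bl ![t ^ q, w₂ 1, w₂ 2, w₂ 3]) x := by
    rw [← hz]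
    exact en hτ0
  have htq : ‖t ^ q‖ < ε := by
    rw [norm_pow]
    exact (pow_le_of_le_one (norm_nonneg _) (htε.le.trans hε1) (by omega)).trans_lt htε
  obtain ⟨b1, -, -, -, b5, b6⟩ := hB _ (hmem _ htq)
  set z : Cm 4 := bl ![t ^ q, w₂ 1, w₂ 2, w₂ 3] with hzdef
  have hθz : θ z ≠ 0 := b1 (pow_ne_zero _ ht0)
  have hκz : κ z = (am a x).det ^ 2 := h.κeq z b6 hθz x hen
  have hκ0 : κ z ≠ 0 := kappa_ne_zero h.good.toIsCov h.genl h.κeq b6 hθz (h.bne z b6).2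
  have hdet : (am a x).det ≠ 0 := by
    intro h0
    rw [h0] at hκz
    exact hκ0 (by rw [hκz]; ring)
  have hVx : ∀ k, x k ∈ V ∧ G (x k) = z := fun k => (hen.2 (x k)).1 ⟨k, rfl⟩
  -- the points of the orbit
  have horb : ∀ i, x (σ^[i] k₀) = φ k₀ ![rt q ^ i * t, w₂ 1, w₂ 2, w₂ 3] := by
    intro i
    have e1 := rot_iter h.per h0 hε (φ := φ) (fun k w hw => (hB w hw).2.2.1 k) i k₀
      ![t, w₂ 1, w₂ 2, w₂ 3] (hmem t htε) ht0
    have e2 : x (σ^[i] k₀) = φ (σ^[i] k₀) ![t, w₂ 1, w₂ 2, w₂ 3] := by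
      simp only [hx]
      rw [s_iter h.per, ← hq, hNs, hτ]
    rw [e2, e1]
    rfl
  have hrt0 : ∀ i : ℕ, rt q ^ i * t ≠ 0 := fun i => by
    refine mul_ne_zero (pow_ne_zero _ ?_) ht0
    rw [← norm_ne_zero_iff, norm_rt]; exact one_ne_zero
  have hrtn : ∀ i : ℕ, ‖rt q ^ i * t‖ = ‖t‖ := fun i => by
    rw [norm_mul, norm_pow, norm_rt, one_pow, one_mul]
  have hA : ∀ i j, (am a x)⁻¹ (σ^[i] k₀) j * (rt q ^ i * t) ^ (2 * q - 2) =
      E j ![rt q ^ i * t, w₂ 1, w₂ 2, w₂ 3] := by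
    intro i j
    have e1 := (hB _ (hmem (rt q ^ i * t) (by rw [hrtn]; exact htε))).2.2.2.1 j (hrt0 i)
    rw [← horb, (hVx _).2, hκz, hNm z b6 hθz x hen, inv_eq hdet] at e1
    exact e1
  -- the coefficients
  set cj : Fin d → ℂ := fun j => ∑ i ∈ Finset.range q,
    (rt q ^ i * t) ^ (q - 1) * (am a x)⁻¹ (σ^[i] k₀) j with hcj
  have hcb : ∀ j, ‖cj j‖ ≤ C j := by
    intro j
    have e1 : cj j * t ^ (q - 1) = ∑ i ∈ Finset.range q, rt q ^ i *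
        E j ![rt q ^ i * t, w₂ 1, w₂ 2, w₂ 3] := by
      rw [hcj, Finset.sum_mul]
      refine Finset.sum_congr rfl fun i _ => ?_
      rw [← hA i j]
      have e2 : rt q ^ i * (rt q ^ i * t) ^ (2 * q - 2) =
          (rt q ^ i * t) ^ (q - 1) * t ^ (q - 1) := by
        have e3 : 2 * q - 2 = (q - 1) + (q - 1) := by omega
        rw [e3, pow_add, mul_pow (rt q ^ i) t (q - 1)]
        have e4 : rt q ^ i * (rt q ^ i) ^ (q - 1) = 1 := by
          rw [← pow_succ', Nat.sub_add_cancel hs1, ← pow_mul, mul_comm, pow_mul, rt_pow hs1,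
            one_pow]
        calc rt q ^ i * ((rt q ^ i) ^ (q - 1) * t ^ (q - 1) * ((rt q ^ i) ^ (q - 1) *
              t ^ (q - 1))) = (rt q ^ i * (rt q ^ i) ^ (q - 1)) * ((rt q ^ i) ^ (q - 1) *
              t ^ (q - 1) * t ^ (q - 1)) := by ring
          _ = _ := by rw [e4]; ring
      calc (rt q ^ i * t) ^ (q - 1) * (am a x)⁻¹ (σ^[i] k₀) j * t ^ (q - 1) =
            ((rt q ^ i * t) ^ (q - 1) * t ^ (q - 1)) * (am a x)⁻¹ (σ^[i] k₀) j := by ring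
        _ = _ := by rw [← e2]; ring
    have e2 := g3 j
    rw [← e1, norm_mul, norm_pow] at e2
    exact le_of_mul_le_mul_right e2 (pow_pos (norm_pos_iff.2 ht0) _)
  have hsum : ∀ l, ∑ j, cj j * a j (x l) = ∑ i ∈ Finset.range q, (rt q ^ i * t) ^ (q - 1) *
      (1 : Matrix (Fin d) (Fin d) ℂ) (σ^[i] k₀) l := by
    intro l
    have e1 : (am a x)⁻¹ * am a x = 1 := Matrix.nonsing_inv_mul _ (isUnit_iff_ne_zero.2 hdet)
    simp only [hcj, Finset.sum_mul]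
    rw [Finset.sum_comm]
    refine Finset.sum_congr rfl fun i _ => ?_
    rw [← e1, Matrix.mul_apply, Finset.mul_sum]
    refine Finset.sum_congr rfl fun j _ => ?_
    simp only [am, Matrix.of_apply]
    ring
  have e1 := hsum k₀
  have e2 := hsum l'
  rw [hv1 t] at e1
  rw [hv2 t] at e2
  have e3 : ∑ j, cj j * (a j (x k₀) - a j (x l')) = (1 - η) * t ^ (q - 1) := by
    simp only [mul_sub, Finset.sum_sub_distrib]
    rw [e1, e2]
    ring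
  have e4 : ‖∑ j, cj j * (a j (x k₀) - a j (x l'))‖ ≤ K * ‖t‖ ^ q := by
    refine (norm_sum_le _ _).trans ?_
    rw [hK, Finset.sum_mul]
    refine Finset.sum_le_sum fun j _ => ?_
    rw [norm_mul, mul_assoc]
    refine mul_le_mul (hcb j) ?_ (norm_nonneg _) (hC0 j)
    have e5 := b5 (x k₀) (hVx _).1 (x l') (hVx _).1 (hVx _).2 (hVx _).2 j
    refine e5.trans (le_of_eq ?_)
    change Ca * ‖t ^ q‖ = _
    rw [norm_pow]
  rw [e3, norm_mul, norm_pow] at e4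
  have e5 : ‖t‖ ^ q = ‖t‖ * ‖t‖ ^ (q - 1) := by rw [← pow_succ', Nat.sub_add_cancel hs1]
  rw [e5, ← mul_assoc] at e4
  have e6 := le_of_mul_le_mul_right e4 (pow_pos (norm_pos_iff.2 ht0) _)
  linarith

end Vale.Agent.P277.H884.S
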