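import Vale.Agent.P277.H884.S.Neg3
import Vale.Agent.P277.H884.S.Slice
import Vale.Agent.P277.H615.R.HasOrd

/-!
# P277, T6: (N) a positive wedge in a good covering: the covering has one sheet
-/

open scoped Manifold ContDiff ComplexOrder Topology
open Vale.Agent.P272.K Vale.Agent.P285.H281.FD Vale.Agent.P267.H175 Set Metric Filter

noncomputable section

namespace Vale.Agent.P277.H884.S

open Vale.Agent.P277.TX Vale.Agent.P277.H19 Vale.Agent.P277.H371 Vale.Agent.P277.T2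
open Vale.Agent.P277.H335.RC
open Vale.Agent.P277.H615 (freq_prod)

section near
variable {Y : Type} [TopologicalSpace Y] [ChartedSpace (Cm 4) Y] {X : CSp} {O : Set Y}
  {v : Y → X.pt} {k : ℕ} {L : Fin k → Bd X.pt} {M : Fin k → Bd Y} {m Q : Fin k → ℕ}
  {T : ∀ e, (L e).ι → ((((Bd.can 4 Y).pow (m e)).mul (M e)).pow (Q e)).ι → Y → ℂ}
  {φ : Cm 4 → X.pt} {w₁ : Cm 4} {i₀ : ∀ e, (L e).ι} {γ : Cm 4 → Y}
  {ch : Chart 4 Y} {μ : ∀ e, (M e).ι} {τ : Fin k → ℝ} {J : ℕ}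

theorem VL0.near (hM : ∀ e, IsLB 4 (M e))
    (h : VL0 O v L M m Q T φ w₁ i₀ γ ch μ τ J) :
    ∀ᶠ w₂ in 𝓝 w₁, VL0 O v L M m Q T φ w₂ i₀ γ ch μ τ J := by
  choose C hC using h.bdT
  obtain ⟨CJ, hCJ⟩ := h.bdJ
  have hsrc : ∀ᶠ w in 𝓝 w₁, γ w ∈ ch.source :=
    h.cont.eventually_mem (ch.open_source.mem_nhds h.at'.2)
  filter_upwards [hsrc.eventually_nhds, h.an.eventually_analyticAt, h.lift.eventually_nhds,
    eventually_all.2 fun e => (hC e).eventually_nhds, hCJ.eventually_nhds,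
    eventually_all.2 fun e => h.cont.eventually_mem (((hM e).isOpen (μ e)).mem_nhds (h.mem e))]
    with w₂ d1 d2 d3 d4 d5 d6
  have hs := d1.self_of_nhds
  refine ⟨?_, ⟨h.at'.1, hs⟩, d6, d2, d3, fun e => ⟨C e, d4 e⟩, ⟨CJ, d5⟩⟩
  have h1 : ContinuousAt (fun w => ch.symm (ch (γ w))) w₂ :=
    ContinuousAt.comp (g := ch.symm) (f := fun w => ch (γ w))
      (ch.continuousAt_symm (ch.map_source hs)) d2.continuousAt
  refine h1.congr ?_
  filter_upwards [d1] with w hw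
  rw [ch.left_inv hw]

end near

/-- a lower bound for a quotient near a point -/
theorem quot_ge {f g : Cm 4 → ℂ} {w₂ : Cm 4} (hf : ContinuousAt f w₂) (hg : ContinuousAt g w₂)
    (hf0 : f w₂ ≠ 0) : ∃ c₀ : ℝ, 0 < c₀ ∧ ∀ᶠ w in 𝓝 w₂, g w ≠ 0 → c₀ ≤ ‖f w / g w‖ := by
  have h1 : 0 < ‖f w₂‖ := norm_pos_iff.2 hf0
  refine ⟨(‖f w₂‖ / 2) / (‖g w₂‖ + 1), by positivity, ?_⟩
  filter_upwards [hf.norm.eventually_const_lt (show ‖f w₂‖ / 2 < ‖f w₂‖ by linarith),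
    hg.norm.eventually_lt_const (lt_add_one _)] with w d1 d2 d3
  have h2 : 0 < ‖g w‖ := norm_pos_iff.2 d3
  rw [norm_div]
  exact div_le_div₀ (norm_nonneg _) d1.le h2 d2.le

section
variable {Y : Type} [TopologicalSpace Y] [T2Space Y] [CompactSpace Y] [ChartedSpace (Cm 4) Y]
  [IsManifold 𝓘(ℂ, Cm 4) ω Y] {X : CSp} {S V : Set X.pt} {G : X.pt → Cm 4} {r : ℝ}
  {d : ℕ} {lam : X.pt → ℂ} {θ : Cm 4 → ℂ} {n : ℕ} {ζ : Fin n → X.pt → ℂ} {a : Fin d → X.pt → ℂ}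
  {b κ : Cm 4 → ℂ} {N : ℕ} {s : Fin d → ℕ} {σ : Equiv.Perm (Fin d)} {φ : Fin d → Cm 4 → X.pt}
  {w₁ : Cm 4} {O : Set Y}
  {v : Y → X.pt} {k : ℕ} {L : Fin k → Bd X.pt} {M : Fin k → Bd Y} {m Q : Fin k → ℕ}
  {T : ∀ e, (L e).ι → ((((Bd.can 4 Y).pow (m e)).mul (M e)).pow (Q e)).ι → Y → ℂ}
  {χ : Chart 4 Y → Cm 4 → Matrix (Fin 4) (Fin 4) ℂ} {ρ : Fin k → ℝ}
  {i₀ : ∀ e, (L e).ι} {γ : Fin d → Cm 4 → Y} {ch : Fin d → Chart 4 Y}
  {μ : Fin d → ∀ e, (M e).ι} {τ : Fin d → Fin k → ℝ} {J : Fin d → ℕ}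

/-- **(N)**: if one of the wedges is positive, then the covering has only one sheet -/
theorem stp_neg (h : Stp X S V G r d lam θ ζ a b κ N s σ φ w₁)
    (hχ : IsKahler χ) (hM : ∀ e, IsLB 4 (M e)) (hNef : ∀ e, Nef χ (M e)) (hm : ∀ e, 1 ≤ m e)
    (hρ : ∀ e, 0 < ρ e) (hρm : ∑ e, ρ e * m e = 1)
    (hv : IsOpenEmb X O v) (hO : DimLe X 2 (v '' O)ᶜ)
    (hL : ∀ e, IsLBx X (L e)) (hQ : ∀ e, 1 ≤ Q e)
    (hT : ∀ e, IsIsoY O v (L e) ((((Bd.can 4 Y).pow (m e)).mul (M e)).pow (Q e)) (T e))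
    (hVL : ∀ e, V ⊆ (L e).U (i₀ e))
    (hl : ∀ k, VL0 O v L M m Q T (φ k) w₁ i₀ (γ k) (ch k) (μ k) (τ k) (J k)) {k₀ : Fin d}
    (hpos : 0 < ∑ e, ρ e * (τ k₀ e / Q e) + J k₀) : d ≤ 1 := by
  by_contra hd
  push Not at hd
  obtain ⟨Nm, hNma, hNm⟩ := exists_dual h.good.toIsCov h.hola
  set q : ℕ := s k₀ with hq
  have hq1 : 1 ≤ q := (h.s1 k₀).1
  -- the functions on the wedge
  have hw₁b : bl w₁ ∈ ball (bl w₁) r := mem_ball_self h.good.pos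
  have hpw : pw q w₁ = bl w₁ := pw_zero hq1 h.w0
  have hκpan : AnalyticAt ℂ (fun w => κ (pw q w)) w₁ :=
    AnalyticAt.comp (g := κ) (by rw [hpw]; exact h.κan _ hw₁b) (analyticAt_pw q w₁)
  have hvec : ContinuousAt (fun w : Cm 4 => (![w 0 ^ q, w 1, w 2, w 3] : Cm 4)) w₁ := by
    refine continuousAt_pi.2 fun i => ?_
    fin_cases i
    · exact ((continuous_apply 0).pow q).continuousAt
    · exact (continuous_apply 1).continuousAt
    · exact (continuous_apply 2).continuousAt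
    · exact (continuous_apply 3).continuousAt
  have hvec1 : (![w₁ 0 ^ q, w₁ 1, w₁ 2, w₁ 3] : Cm 4) = w₁ := by
    rw [h.w0, zero_pow (by omega)]
    exact vec_zero h.w0
  have hpwbl : ∀ w : Cm 4, pw q w = bl ![w 0 ^ q, w 1, w 2, w 3] := by
    intro w
    ext i
    fin_cases i
    · rfl
    · change w 1 * w 0 ^ q = w 0 ^ q * w 1
      ring
    · rfl
    · rfl
  have hκne : ∀ᶠ w in 𝓝 w₁, w 0 ≠ 0 → κ (pw q w) ≠ 0 := by
    have h1 : ∀ᶠ w in 𝓝 w₁, (![w 0 ^ q, w 1, w 2, w 3] : Cm 4) 0 ≠ 0 →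
        θ (bl ![w 0 ^ q, w 1, w 2, w 3]) ≠ 0 := by
      have h2 : Tendsto (fun w : Cm 4 => (![w 0 ^ q, w 1, w 2, w 3] : Cm 4)) (𝓝 w₁) (𝓝 w₁) := by
        have := hvec.tendsto
        rwa [hvec1] at this
      exact h2.eventually h.θne
    have h3 : ∀ᶠ w in 𝓝 w₁, pw q w ∈ ball (bl w₁) r :=
      (analyticAt_pw q w₁).continuousAt.eventually_mem (isOpen_ball.mem_nhds (by rw [hpw]; exact hw₁b))
    filter_upwards [h1, h3] with w g1 g2 hw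
    have g3 := g1 (pow_ne_zero q hw)
    rw [← hpwbl] at g3
    exact kappa_ne_zero h.good.toIsCov h.genl h.κeq g2 g3 (h.bne _ g2).2
  have hκnot : ¬ ∀ᶠ w in 𝓝 w₁, κ (pw q w) = 0 := by
    intro hcon
    obtain ⟨ε, hε, hε'⟩ := Metric.eventually_nhds_iff_ball.1 (hcon.and hκne)
    have h1 : ‖((ε / 2 : ℝ) : ℂ)‖ < ε := by
      rw [Complex.norm_real, Real.norm_eq_abs, abs_of_pos (half_pos hε)]
      linarith
    have h2 := hε' _ (vec_mem_ball h.w0 hε (mem_ball_self hε) h1)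
    refine h2.2 ?_ h2.1
    change ((ε / 2 : ℝ) : ℂ) ≠ 0
    exact_mod_cast (half_pos hε).ne'
  obtain ⟨aκ, gκ, hgκ, hκeq, hgκ0⟩ := exists_max_pow hκpan h.w0 hκnot
  have hgκf : ∃ᶠ w in 𝓝 w₁, w 0 = 0 ∧ gκ w ≠ 0 := by
    rw [Filter.not_eventually] at hgκ0
    exact hgκ0.mono fun w hw => by push Not at hw; exact hw
  have hNan : ∀ j, AnalyticAt ℂ (fun w => Nm j (φ k₀ w)) w₁ := fun j => by
    have h1 := (h.pui k₀).self_of_nhds
    exact h1.1.2 _ (hNma j _ h1.2.1)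
  have hex : ∀ j, ∃ (bj : ℕ) (gj : Cm 4 → ℂ), AnalyticAt ℂ gj w₁ ∧
      (∀ᶠ w in 𝓝 w₁, Nm j (φ k₀ w) = w 0 ^ bj * gj w) ∧
      ((∀ w, gj w = 0) ∨ ∃ᶠ w in 𝓝 w₁, w 0 = 0 ∧ gj w ≠ 0) := by
    intro j
    by_cases hz : ∀ᶠ w in 𝓝 w₁, Nm j (φ k₀ w) = 0
    · refine ⟨0, fun _ => 0, analyticAt_const, ?_, Or.inl fun _ => rfl⟩
      filter_upwards [hz] with w hw
      rw [hw]; ring
    · obtain ⟨bj, gj, g1, g2, g3⟩ := exists_max_pow (hNan j) h.w0 hz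
      refine ⟨bj, gj, g1, g2, Or.inr ?_⟩
      rw [Filter.not_eventually] at g3
      exact g3.mono fun w hw => by push Not at hw; exact hw
  choose bj gj hgj hNeq hgj0 using hex
  classical
  set A : Option (Fin d) → Cm 4 → ℂ := fun o => o.elim gκ
    (fun j => if ∀ w, gj j w = 0 then fun _ => 1 else gj j) with hA
  have hAan : ∀ o, AnalyticAt ℂ (A o) w₁ := by
    rintro (_ | j)
    · exact hgκ
    · change AnalyticAt ℂ (if ∀ w, gj j w = 0 then fun _ => 1 else gj j) w₁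
      split_ifs
      · exact analyticAt_const
      · exact hgj j
  have hAf : ∀ o, ∃ᶠ w in 𝓝 w₁, w 0 = 0 ∧ A o w ≠ 0 := by
    rintro (_ | j)
    · exact hgκf
    · change ∃ᶠ w in 𝓝 w₁, w 0 = 0 ∧ (if ∀ w, gj j w = 0 then fun _ => 1 else gj j) w ≠ 0
      split_ifs with hz
      · exact Vale.Agent.P277.H615.freq_one h.w0 continuousAt_const one_ne_zero
      · exact (hgj0 j).resolve_left hz
  have hfr := freq_prod h.w0 Finset.univ hAan hAf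
  have hEv : ∀ᶠ w₂ in 𝓝 w₁, bl w₂ ∈ ball (bl w₁) r ∧
      (∀ᶠ w in 𝓝 w₂, w 0 ≠ 0 → θ (bl w) ≠ 0) ∧
      (∀ k, ∀ᶠ w in 𝓝 w₂, HolAt X (φ k) w ∧ φ k w ∈ V ∧ G (φ k w) = pw (s k) w) ∧
      (∀ᶠ w in 𝓝 w₂, w 0 ≠ 0 → Enum V G ![w 0 ^ N, w 1 * w 0 ^ N, w 2, w 3]
        (fun k => φ k ![w 0 ^ (N / s k), w 1, w 2, w 3])) ∧
      (∀ k, ∀ᶠ w in 𝓝 w₂, w 0 ≠ 0 → φ (σ k) w = φ k ![rt (s k) * w 0, w 1, w 2, w 3]) ∧
      (∀ k, VL0 O v L M m Q T (φ k) w₂ i₀ (γ k) (ch k) (μ k) (τ k) (J k)) ∧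
      (∀ᶠ w in 𝓝 w₂, κ (pw q w) = w 0 ^ aκ * gκ w) ∧ AnalyticAt ℂ gκ w₂ ∧
      (∀ j, AnalyticAt ℂ (gj j) w₂) ∧
      (∀ j, ∀ᶠ w in 𝓝 w₂, Nm j (φ k₀ w) = w 0 ^ bj j * gj j w) :=
    (continuous_bl.continuousAt.eventually (isOpen_ball.mem_nhds hw₁b)).and
      (h.θne.eventually_nhds.and
      ((eventually_all.2 fun k => (h.pui k).eventually_nhds).and
      (h.enum.eventually_nhds.and
      ((eventually_all.2 fun k => (h.rot k).eventually_nhds).and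
      ((eventually_all.2 fun k => (hl k).near hM).and
      (hκeq.eventually_nhds.and (hgκ.eventually_analyticAt.and
      ((eventually_all.2 fun j => (hgj j).eventually_analyticAt).and
      (eventually_all.2 fun j => (hNeq j).eventually_nhds)))))))))
  obtain ⟨w₂, ⟨h20, hA2⟩, e1, e2, e3, e4, e5, e6, e7, e8, e9, e10⟩ := (hfr.and_eventually hEv).exists
  have hgκ2 : gκ w₂ ≠ 0 := hA2 none (Finset.mem_univ _)
  have hgj2 : ∀ j, (¬ ∀ w, gj j w = 0) → gj j w₂ ≠ 0 := by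
    intro j hj
    have h1 := hA2 (some j) (Finset.mem_univ _)
    change (if ∀ w, gj j w = 0 then fun _ => 1 else gj j) w₂ ≠ 0 at h1
    rwa [if_neg hj] at h1
  have hEx : ∀ j, ∃ Ej : Cm 4 → ℂ, AnalyticAt ℂ Ej w₂ ∧ ∀ᶠ w in 𝓝 w₂, w 0 ≠ 0 →
      Nm j (φ k₀ w) / κ (G (φ k₀ w)) * w 0 ^ (2 * q - 2) = Ej w := by
    intro j
    by_cases hz : ∀ w, gj j w = 0
    · refine ⟨fun _ => 0, analyticAt_const, ?_⟩
      filter_upwards [e10 j] with w g1 _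
      rw [g1, hz w]; ring
    · have hgj2' := hgj2 j hz
      obtain ⟨c₀, hc₀, hc⟩ := quot_ge (e9 j).continuousAt e8.continuousAt hgj2'
      have hgne : ∀ᶠ w in 𝓝 w₂, gκ w ≠ 0 := e8.continuousAt.eventually_ne hgκ2
      have hk := contraN (V := V) (G := G) (c := bl w₁) (r := r) (lam := lam) (θ := θ) (ζ := ζ)
        (a := a) (b := b) (κ := κ) (N := N) (s := s) (φ := φ) (w₁ := w₂) (Nm := Nm)
        (χ := χ) hχ hM hNef hv hO h.good.toIsCov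
        h.coord h.bne h.genl h.gen h.κan h.κeq hL hm hQ hT hVL hρ hρm h20 e1 e2 h.N1
        (fun k => ⟨(h.s1 k).1, (h.s1 k).2.2⟩) (fun k => (e3 k).mono fun w hw => ⟨hw.1.1, hw.2⟩)
        e4 e6 k₀ hNma hNm j (o := (bj j : ℤ) - aκ) hc₀ (by
          filter_upwards [hc, hgne, e7, e10 j, e3 k₀] with w g1 g2 g3 g4 g5 hw
          rw [g5.2.2, ← hq, g3, g4]
          have h1 : w 0 ^ bj j * gj j w / (w 0 ^ aκ * gκ w) =
              w 0 ^ ((bj j : ℤ) - aκ) * (gj j w / gκ w) := by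
            rw [zpow_sub₀ hw, zpow_natCast, zpow_natCast]
            field_simp
          rw [h1, norm_mul, norm_zpow, mul_comm]
          exact mul_le_mul_of_nonneg_left (g1 g2) (zpow_nonneg (norm_nonneg _) _))
      have hge : aκ ≤ bj j + (2 * q - 2) := by
        have h1 : (1 : ℝ) - 2 * q < (bj j : ℝ) - aκ := by
          push_cast at hk
          linarith
        have h2 : (1 : ℤ) - 2 * q < (bj j : ℤ) - aκ := by exact_mod_cast h1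
        omega
      refine ⟨fun w => w 0 ^ (bj j + (2 * q - 2) - aκ) * (gj j w / gκ w), ?_, ?_⟩
      · refine AnalyticAt.mul ?_ ((e9 j).div e8 hgκ2)
        exact ((ContinuousLinearMap.proj (R := ℂ) (φ := fun _ : Fin 4 => ℂ) 0).analyticAt _).pow _
      · filter_upwards [hgne, e7, e10 j, e3 k₀] with w g2 g3 g4 g5 hw
        rw [g5.2.2, ← hq, g3, g4]
        have h1 : w 0 ^ (bj j + (2 * q - 2) - aκ) * w 0 ^ aκ = w 0 ^ bj j * w 0 ^ (2 * q - 2) := by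
          rw [← pow_add, ← pow_add, Nat.sub_add_cancel hge]
        have h2 : w 0 ^ aκ ≠ 0 := pow_ne_zero _ hw
        field_simp
        linear_combination (-gj j w) * h1
  choose E hEan hEeq using hEx
  exact slice_false h hd k₀ hNm h20 e1 e2 e4 e5 hEan hEeq

end

end Vale.Agent.P277.H884.S
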