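import Vale.Agent.P277.H884.S.PuiT
import Vale.Agent.P277.H335.RegCore

/-!
# P277, T6: the data of a good covering near a generic point `w₁` of the exceptional divisor
-/

open scoped Manifold ContDiff ComplexOrder Topology
open Vale.Agent.P272.K Vale.Agent.P285.H281.FD Vale.Agent.P267.H175 Set Metric Filter

noncomputable section

namespace Vale.Agent.P277.H884.S

open Vale.Agent.P277.TX Vale.Agent.P277.H19 Vale.Agent.P277.H371 Vale.Agent.P277.T2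

/-- A good covering over a small ball around `bl w₁`, `w₁` generic on `{w 0 = 0}`, with generators
`a` (up to `b`), discriminant `κ`, parametrisations `φ k` of the sheets and monodromy `σ`. -/
structure Stp (X : CSp) (S V : Set X.pt) (G : X.pt → Cm 4) (r : ℝ) (d : ℕ) (lam : X.pt → ℂ)
    (θ : Cm 4 → ℂ) {n : ℕ} (ζ : Fin n → X.pt → ℂ) (a : Fin d → X.pt → ℂ) (b κ : Cm 4 → ℂ)
    (N : ℕ) (s : Fin d → ℕ) (σ : Equiv.Perm (Fin d)) (φ : Fin d → Cm 4 → X.pt) (w₁ : Cm 4) :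
    Prop where
  good : IsGood X S V G (bl w₁) r d lam θ
  w0 : w₁ 0 = 0
  coord : IsCoord X V ζ
  hola : ∀ i, ∀ x ∈ V, X.Hol (a i) x
  bne : ∀ z ∈ ball (bl w₁) r, ContinuousAt b z ∧ b z ≠ 0
  gen : ∀ l : Fin d, ∀ f : Fin (l : ℕ) → Fin n, Gen V G (bl w₁) r a b (fun x => ∏ t, ζ (f t) x)
  genl : ∀ l : Fin d, Gen V G (bl w₁) r a b (fun x => lam x ^ (l : ℕ))
  κan : ∀ z ∈ ball (bl w₁) r, AnalyticAt ℂ κ z
  κeq : ∀ z ∈ ball (bl w₁) r, θ z ≠ 0 → ∀ x : Fin d → X.pt, Enum V G z x →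
    κ z = (Matrix.of fun i k => a i (x k)).det ^ 2
  θne : ∀ᶠ w in 𝓝 w₁, w 0 ≠ 0 → θ (bl w) ≠ 0
  N1 : 1 ≤ N
  s1 : ∀ k, 1 ≤ s k ∧ s k ≤ d ∧ s k ∣ N
  pui : ∀ k, ∀ᶠ w in 𝓝 w₁, HolAt X (φ k) w ∧ φ k w ∈ V ∧ G (φ k w) = pw (s k) w
  enum : ∀ᶠ w in 𝓝 w₁, w 0 ≠ 0 → Enum V G ![w 0 ^ N, w 1 * w 0 ^ N, w 2, w 3]
    (fun k => φ k ![w 0 ^ (N / s k), w 1, w 2, w 3])
  per : ∀ k, s k = Function.minimalPeriod σ k
  rot : ∀ k, ∀ᶠ w in 𝓝 w₁, w 0 ≠ 0 → φ (σ k) w = φ k ![rt (s k) * w 0, w 1, w 2, w 3]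

section rot
variable {X : CSp} {V : Set X.pt} {G : X.pt → Cm 4} {d : ℕ}
  {N : ℕ} {s : Fin d → ℕ} {σ : Equiv.Perm (Fin d)} {φ : Fin d → Cm 4 → X.pt}

theorem s_iter (hper : ∀ k, s k = Function.minimalPeriod σ k) (j : ℕ) (k : Fin d) :
    s (σ^[j] k) = s k := by
  rw [hper, hper]
  exact Function.minimalPeriod_apply_iterate (σ.injective.mem_periodicPts k) j

theorem vec_mem_ball {w₀ : Cm 4} (h0 : w₀ 0 = 0) {ε : ℝ} (hε : 0 < ε) {w : Cm 4}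
    (hw : w ∈ ball w₀ ε) {t : ℂ} (ht : ‖t‖ < ε) :
    (![t, w 1, w 2, w 3] : Cm 4) ∈ ball w₀ ε := by
  rw [mem_ball, dist_pi_lt_iff hε]
  intro i
  have h3 : ∀ i, dist (w i) (w₀ i) < ε := fun i => (dist_le_pi_dist w w₀ i).trans_lt hw
  fin_cases i
  · change dist t (w₀ 0) < ε
    rw [h0, dist_zero_right]
    exact ht
  · exact h3 1
  · exact h3 2
  · exact h3 3

theorem norm_zero_lt {w₀ : Cm 4} (h0 : w₀ 0 = 0) {ε : ℝ} {w : Cm 4} (hw : w ∈ ball w₀ ε) :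
    ‖w 0‖ < ε := by
  have := (dist_le_pi_dist w w₀ 0).trans_lt hw
  rwa [h0, dist_zero_right] at this

/-- iterated rotations -/
theorem rot_iter (hper : ∀ k, s k = Function.minimalPeriod σ k) {w₀ : Cm 4} (h0 : w₀ 0 = 0)
    {ε : ℝ} (hε : 0 < ε)
    (hrot : ∀ k, ∀ w ∈ ball w₀ ε, w 0 ≠ 0 → φ (σ k) w = φ k ![rt (s k) * w 0, w 1, w 2, w 3])
    (j : ℕ) (k : Fin d) : ∀ w ∈ ball w₀ ε, w 0 ≠ 0 →
      φ (σ^[j] k) w = φ k ![rt (s k) ^ j * w 0, w 1, w 2, w 3] := by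
  induction j with
  | zero =>
    intro w _ _
    rw [pow_zero, one_mul]
    have h1 : (![w 0, w 1, w 2, w 3] : Cm 4) = w := by
      ext i
      fin_cases i <;> rfl
    rw [h1]
    rfl
  | succ j ih =>
    intro w hw hw0
    have hn : ‖rt (s k) * w 0‖ < ε := by
      rw [norm_mul, norm_rt, one_mul]
      exact norm_zero_lt h0 hw
    rw [Function.iterate_succ_apply', hrot _ w hw hw0, s_iter hper,
      ih _ (vec_mem_ball h0 hε hw hn) (mul_ne_zero (by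
        rw [← norm_ne_zero_iff, norm_rt]; exact one_ne_zero) hw0)]
    congr 1
    ext i
    fin_cases i
    · change rt (s k) ^ j * (rt (s k) * w 0) = rt (s k) ^ (j + 1) * w 0
      ring
    · rfl
    · rfl
    · rfl

/-- the parametrisations of the sheets are injective -/
theorem pui_injOn (hper : ∀ k, s k = Function.minimalPeriod σ k) {w₀ : Cm 4} (h0 : w₀ 0 = 0)
    {ε : ℝ} (hε : 0 < ε) (hN : 1 ≤ N) (hs : ∀ k, 1 ≤ s k ∧ s k ∣ N)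
    (hφ : ∀ k, ∀ w ∈ ball w₀ ε, G (φ k w) = pw (s k) w)
    (hE : ∀ w ∈ ball w₀ ε, w 0 ≠ 0 → Enum V G ![w 0 ^ N, w 1 * w 0 ^ N, w 2, w 3]
      (fun k => φ k ![w 0 ^ (N / s k), w 1, w 2, w 3]))
    (hrot : ∀ k, ∀ w ∈ ball w₀ ε, w 0 ≠ 0 → φ (σ k) w = φ k ![rt (s k) * w 0, w 1, w 2, w 3])
    (hε1 : ε ≤ 1) (k : Fin d) :
    InjOn (φ k) {w | w ∈ ball w₀ ε ∧ ‖w 0‖ < ε ^ N ∧ w 0 ≠ 0} := by
  rintro w ⟨hw, hwN, hw0⟩ w' ⟨hw', -, -⟩ heq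
  have h1 : pw (s k) w = pw (s k) w' := by rw [← hφ k w hw, ← hφ k w' hw', heq]
  have e0 : w 0 ^ s k = w' 0 ^ s k := congrFun h1 0
  have e1 : w 1 * w 0 ^ s k = w' 1 * w' 0 ^ s k := congrFun h1 1
  have e2 : w 2 = w' 2 := congrFun h1 2
  have e3 : w 3 = w' 3 := congrFun h1 3
  have e4 : w 1 = w' 1 := by
    rw [← e0] at e1
    exact mul_right_cancel₀ (pow_ne_zero _ hw0) e1
  have hs0 : s k ≠ 0 := by have := (hs k).1; omega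
  have : NeZero (s k) := ⟨hs0⟩
  obtain ⟨j, hj, hj'⟩ : ∃ j < s k, rt (s k) ^ j * w 0 = w' 0 := by
    have h2 : (w' 0 / w 0) ^ s k = 1 := by
      rw [div_pow, ← e0, div_self (pow_ne_zero _ hw0)]
    obtain ⟨j, hj, hj'⟩ := (rt_prim (hs k).1).eq_pow_of_pow_eq_one h2
    exact ⟨j, hj, by rw [hj', div_mul_cancel₀ _ hw0]⟩
  have hw'e : w' = ![rt (s k) ^ j * w 0, w 1, w 2, w 3] := by
    ext i
    fin_cases i
    · exact hj'.symm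
    · exact e4.symm
    · exact e2.symm
    · exact e3.symm
  have h3 := rot_iter hper h0 hε hrot j k w hw hw0
  rw [← hw'e, ← heq] at h3
  -- injectivity of the enumeration
  obtain ⟨q, hq⟩ := (hs k).2
  have hq1 : 1 ≤ q := by
    rcases Nat.eq_zero_or_pos q with h | h
    · rw [h, mul_zero] at hq; omega
    · exact h
  have hNs : N / s k = q := by rw [hq]; exact Nat.mul_div_cancel_left q (hs k).1
  obtain ⟨t, ht⟩ := IsAlgClosed.exists_pow_nat_eq (w 0) (n := q) (by omega)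
  have ht0 : t ≠ 0 := by
    rintro rfl
    rw [zero_pow (by omega)] at ht
    exact hw0 ht.symm
  have htε : ‖t‖ < ε := by
    have h4 : ‖t‖ ^ q < ε ^ q := by
      rw [← norm_pow, ht]
      refine hwN.trans_le ?_
      refine pow_le_pow_of_le_one hε.le hε1 ?_
      rw [hq]
      exact Nat.le_mul_of_pos_left q (hs k).1
    exact lt_of_pow_lt_pow_left₀ q hε.le h4
  have h5 := (hE _ (vec_mem_ball h0 hε hw htε) ht0).1
  have h6 : ∀ l, s l = s k → φ l ![(![t, w 1, w 2, w 3] : Cm 4) 0 ^ (N / s l),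
      (![t, w 1, w 2, w 3] : Cm 4) 1, (![t, w 1, w 2, w 3] : Cm 4) 2,
      (![t, w 1, w 2, w 3] : Cm 4) 3] = φ l w := by
    intro l hl
    congr 1
    ext i
    fin_cases i
    · change t ^ (N / s l) = w 0
      rw [hl, hNs, ht]
    · rfl
    · rfl
    · rfl
  have h7 : σ^[j] k = k := by
    refine h5 ?_
    simp only
    rw [h6 _ (s_iter hper j k), h6 _ rfl, h3]
  have h8 : s k ∣ j := by
    rw [hper]
    exact Function.IsPeriodicPt.minimalPeriod_dvd h7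
  have h9 : j = 0 := Nat.eq_zero_of_dvd_of_lt h8 hj
  rw [hw'e, h9, pow_zero, one_mul]
  ext i
  fin_cases i <;> rfl

end rot

section
variable {Y : Type} [TopologicalSpace Y] [T2Space Y] [CompactSpace Y] [ChartedSpace (Cm 4) Y]
  [IsManifold 𝓘(ℂ, Cm 4) ω Y] {X : CSp} {S V : Set X.pt} {G : X.pt → Cm 4} {c : Cm 4} {r : ℝ}
  {d : ℕ} {lam : X.pt → ℂ} {θ : Cm 4 → ℂ} {O : Set Y} {v : Y → X.pt}

/-- existence of the data, with an arbitrary generic property `P` of all wedges -/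
theorem exists_stp (hX : IsNormal 4 X) (hv : IsOpenEmb X O v)
    (hO : DimLe X 2 (v '' O)ᶜ) (hSan : IsAn X univ S) (hS2 : DimLe X 2 S)
    (hg : IsGood X S V G c r d lam θ) {n : ℕ} {ζ : Fin n → X.pt → ℂ} (hζ : IsCoord X V ζ)
    {P : (Cm 4 → X.pt) → Cm 4 → Prop}
    (hPo : ∀ φ w, HolAt X φ w → P φ w → ∀ᶠ w' in 𝓝 w, P φ w')
    (hPe : ∀ (W : Set (Cm 4)) (w₀ : Cm 4) (φ : Cm 4 → X.pt), IsOpen W → w₀ ∈ W → w₀ 0 = 0 →
      (∀ w ∈ W, HolAt X φ w) → (∀ w ∈ W, w 0 = 0 → φ w ∈ S) →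
      W ⊆ closure {w | w ∈ W ∧ φ w ∈ v '' O} → (∀ w ∈ W, φ w ∈ V) →
      InjOn φ {w | w ∈ W ∧ w 0 ≠ 0} → ∃ w₁ ∈ W, w₁ 0 = 0 ∧ P φ w₁)
    {ι' : Type*} {U : ι' → Set X.pt} (hUo : ∀ i, IsOpen (U i)) (hUc : ∀ x, ∃ i, x ∈ U i) :
    ∃ (V' : Set X.pt) (r' : ℝ) (a : Fin d → X.pt → ℂ) (b κ : Cm 4 → ℂ) (N : ℕ) (s : Fin d → ℕ)
      (σ : Equiv.Perm (Fin d)) (φ : Fin d → Cm 4 → X.pt) (w₁ : Cm 4),
      Stp X S V' G r' d lam θ ζ a b κ N s σ φ w₁ ∧ V' ⊆ V ∧ (∃ i, V' ⊆ U i) ∧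
      (∀ k, P (φ k) w₁) := by
  obtain ⟨r₁, a, b, hr₁, hr₁r, ha, hb, hbne, hgen⟩ :=
    H29.stAlg X hX S hSan hS2 V G c r d lam θ hg n ζ hζ
  -- a common radius
  let fam : (Σ l : Fin d, (Fin (l : ℕ) → Fin n)) ⊕ Fin d → X.pt → ℂ := fun i =>
    i.elim (fun p x => ∏ t, ζ (p.2 t) x) (fun l x => lam x ^ (l : ℕ))
  have hfam : ∀ i, ∀ x ∈ V, X.Hol (fam i) x := by
    rintro (p | l) x hx
    · exact hol_prod _ fun t _ => hζ.hol _ x hx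
    · exact hol_pow (hg.lamHol x hx) _
  obtain ⟨r₂, hr₂, hr₂₁, hgen₂⟩ := exists_radius (p := fun i ρ =>
      Gen {x | x ∈ V ∧ G x ∈ ball c ρ} G c ρ a b (fam i)) (fun i => by
        obtain ⟨ρ, hρ, -, f, hf1, hf2⟩ := hgen (fam i) (hfam i)
        exact ⟨ρ, hρ, f, hf1, fun x hx => hf2 x hx.1 hx.2⟩)
    (fun i ρ ρ' _ hρ' h => h.mono (fun x hx => ⟨hx.1, ball_subset_ball hρ' hx.2⟩)
      (ball_subset_ball hρ')) hr₁
  have hsub₂ : ball c r₂ ⊆ ball c r := ball_subset_ball (hr₂₁.trans hr₁r)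
  set V₂ : Set X.pt := {x | x ∈ V ∧ G x ∈ ball c r₂} with hV₂
  have hg₂ : IsGood X S V₂ G c r₂ d lam θ := IsGood.restrict H335.stCovRes hg hr₂ hsub₂ hg.c0 hg.c1
  have hthin := H19.stThin Y X O v hv hO V₂ G c r₂ d lam θ hg₂.toIsCov
  obtain ⟨z, hz, hz0, hz1, hbz⟩ := hbne r₂ hr₂
  obtain ⟨w₀, m', Φ, hw₀0, hw₀, hbw₀, hbaw₀, hΦ, hΦ0, hΦe⟩ :=
    exists_base hg₂.toIsCov hz hz0 hz1 (hb z (ball_subset_ball hr₂₁ hz)) hbz
  obtain ⟨N, s, ε, φ, σ, hN, hε, hε1, hs, hφ, hE, hper, hrot⟩ :=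
    stPuiT X V₂ G c r₂ d lam θ hg₂.toIsCov w₀ hw₀0 hw₀ m' Φ hΦ hΦ0 hΦe
  have hφ' : ∀ k, ∀ w ∈ ball w₀ ε, HolAt X (φ k) w ∧ φ k w ∈ V₂ ∧ G (φ k w) = pw (s k) w := hφ
  -- the set `W₀`
  have hW₀ : ∀ᶠ w in 𝓝 w₀, w ∈ ball w₀ ε ∧ ‖w 0‖ < ε ^ N ∧ bl w ∈ ball c r₂ ∧ b (bl w) ≠ 0 ∧
      Φ w ≠ 0 ∧ θ (bl w) = w 0 ^ m' * Φ w := by
    have h1 : ∀ᶠ w in 𝓝 w₀, ‖w 0‖ < ε ^ N := by
      have h2 : ContinuousAt (fun w : Cm 4 => ‖w 0‖) w₀ := (continuous_apply 0).norm.continuousAt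
      refine h2.eventually_lt_const ?_
      show ‖w₀ 0‖ < ε ^ N
      rw [hw₀0, norm_zero]
      exact pow_pos hε N
    filter_upwards [ball_mem_nhds w₀ hε, h1, continuous_bl.continuousAt.eventually
      (isOpen_ball.mem_nhds hw₀), continuous_bl.continuousAt.eventually
      (hbaw₀.continuousAt.eventually_ne hbw₀), hΦ.continuousAt.eventually_ne hΦ0, hΦe]
      with w h1 h1' h2 h3 h4 h5
    exact ⟨h1, h1', h2, h3, h4, h5⟩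
  obtain ⟨W₀, hW₀s, hW₀o, hw₀W₀⟩ := _root_.mem_nhds_iff.1 hW₀
  have hex : ∀ k, ∀ W' ⊆ W₀, IsOpen W' → ∀ w' ∈ W', w' 0 = 0 →
      ∃ w₁ ∈ W', w₁ 0 = 0 ∧ P (φ k) w₁ := by
    intro k W' hW' hW'o w' hw' hw'0
    have hb' : ∀ w ∈ W', w ∈ ball w₀ ε := fun w hw => (hW₀s (hW' hw)).1
    refine hPe W' w' (φ k) hW'o hw' hw'0 (fun w hw => (hφ' k w (hb' w hw)).1)
      (fun w hw h0 => ?_) ?_ (fun w hw => (hφ' k w (hb' w hw)).2.1.1) ?_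
    · obtain ⟨-, g2, g3⟩ := hφ' k w (hb' w hw)
      rw [hg₂.memS _ g2, g3, pw_zero (hs k).1 h0]
      exact bl_zero h0
    · exact wedge_closure hg₂.maps hthin hW'o (hs k).1 fun w hw => (hφ' k w (hb' w hw)).2
    · have h1 := pui_injOn (N := N) (s := s) (G := G) (V := V₂) hper hw₀0 hε hN
        (fun k => ⟨(hs k).1, (hs k).2.2⟩) (fun k w hw => (hφ' k w hw).2.2) hE hrot hε1 k
      refine h1.mono ?_
      rintro w ⟨hw, hw0⟩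
      exact ⟨hb' w hw, (hW₀s (hW' hw)).2.1, hw0⟩
  obtain ⟨w₁, hw₁W, hw₁0, hw₁L⟩ := exists_common (P := fun k w => P (φ k) w)
    (fun k w hw h => hPo _ _ (hφ' k w (hW₀s hw).1).1 h) hex Finset.univ W₀ Subset.rfl
    hW₀o w₀ hw₀W₀ hw₀0
  have hw₁b := (hW₀s hw₁W).1
  have hbl₁ := (hW₀s hw₁W).2.2.1
  -- the point of `S` over `bl w₁`
  set k₀ : Fin d := ⟨0, hg.dpos⟩ with hk₀
  have hφG : ∀ k, G (φ k w₁) = bl w₁ := fun k => by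
    rw [(hφ' k w₁ hw₁b).2.2, pw_zero (hs k).1 hw₁0]
  have hφV : ∀ k, φ k w₁ ∈ V₂ := fun k => (hφ' k w₁ hw₁b).2.1
  have hpS : φ k₀ w₁ ∈ S := by
    rw [hg₂.memS _ (hφV k₀), hφG]
    exact bl_zero hw₁0
  have huniq : ∀ y ∈ V₂, G y = bl w₁ → y = φ k₀ w₁ := fun y hy hyG =>
    hg₂.uniq _ (hφV k₀) hpS y hy (by rw [hyG, hφG])
  obtain ⟨i₀, hi₀⟩ := hUc (φ k₀ w₁)
  -- the small ball
  have hsmall : ∀ᶠ z in 𝓝 (bl w₁), z ∈ ball c r₂ ∧ b z ≠ 0 ∧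
      ∀ x ∈ V₂, G x = z → x ∈ U i₀ := by
    filter_upwards [isOpen_ball.mem_nhds hbl₁,
      (hb _ (ball_subset_ball hr₂₁ hbl₁)).continuousAt.eventually_ne (hW₀s hw₁W).2.2.2.1,
      cov_eventually hg₂.toIsCov hbl₁ (W := U i₀)
        fun x hx hxG => by
          rw [huniq x hx hxG]; exact (hUo i₀).mem_nhds hi₀] with z h1 h2 h3
    exact ⟨h1, h2, h3⟩
  obtain ⟨r₃, hr₃, hball₃⟩ := Metric.eventually_nhds_iff_ball.1 hsmall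
  have hsub₃ : ball (bl w₁) r₃ ⊆ ball c r₂ := fun z hz => (hball₃ z hz).1
  have hg₃ : IsGood X S {x | x ∈ V₂ ∧ G x ∈ ball (bl w₁) r₃} G (bl w₁) r₃ d lam θ :=
    IsGood.restrict H335.stCovRes hg₂ hr₃ hsub₃ (bl_zero hw₁0).1 (bl_zero hw₁0).2
  set V₃ : Set X.pt := {x | x ∈ V₂ ∧ G x ∈ ball (bl w₁) r₃} with hV₃
  have ha₃ : ∀ i, ∀ x ∈ V₃, X.Hol (a i) x := fun i x hx =>
    ha i x hx.1.1 (ball_subset_ball hr₂₁ hx.1.2)
  obtain ⟨κ, hκa, hκ⟩ := H335.stDet X V₃ G (bl w₁) r₃ d lam θ hg₃.toIsCov a ha₃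
  have hgen₃ : ∀ i, Gen V₃ G (bl w₁) r₃ a b (fam i) := fun i =>
    (hgen₂ i).mono (fun x hx => hx.1) hsub₃
  have hpwc : ∀ s : ℕ, 1 ≤ s → ∀ᶠ w in 𝓝 w₁, pw s w ∈ ball (bl w₁) r₃ := by
    intro s hs
    refine (analyticAt_pw s w₁).continuousAt.eventually_mem ?_
    rw [pw_zero hs hw₁0]
    exact ball_mem_nhds _ hr₃
  have hballw : ∀ᶠ w in 𝓝 w₁, w ∈ ball w₀ ε := isOpen_ball.mem_nhds hw₁b
  refine ⟨V₃, r₃, a, b, κ, N, s, σ, φ, w₁, ⟨hg₃, hw₁0, hζ.mono hg₃.isOpen fun x hx => hx.1.1, ha₃,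
    fun z hz => ⟨(hb z (ball_subset_ball hr₂₁ (hsub₃ hz))).continuousAt, (hball₃ z hz).2.1⟩,
    fun l f => hgen₃ (Sum.inl ⟨l, f⟩), fun l => hgen₃ (Sum.inr l), hκa, hκ, ?_, hN, hs,
    fun k => ?_, ?_, hper, fun k => ?_⟩, fun x hx => hx.1.1,
    ⟨i₀, fun x hx => (hball₃ _ hx.2).2.2 x hx.1 rfl⟩, fun k => hw₁L k (Finset.mem_univ k)⟩
  · filter_upwards [hW₀o.mem_nhds hw₁W] with w hw hw0
    rw [(hW₀s hw).2.2.2.2.2]
    exact mul_ne_zero (pow_ne_zero _ hw0) (hW₀s hw).2.2.2.2.1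
  · filter_upwards [hballw, hpwc (s k) (hs k).1] with w h1 h2
    obtain ⟨g1, g2, g3⟩ := hφ' k w h1
    exact ⟨g1, ⟨g2, by rw [g3]; exact h2⟩, g3⟩
  · filter_upwards [hballw, hpwc N hN] with w h1 h2 hw0
    exact Enum.restrict (hE w h1 hw0) h2
  · filter_upwards [hballw] with w h1 hw0
    exact hrot k w h1 hw0

end

end Vale.Agent.P277.H884.S
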