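import Vale.Agent.P277.H29.W.Klt

/-!
# P277, (WS): infinite sequences of flips of klt pairs whose flipped surfaces are not contained in the
singular loci
-/

set_option maxSynthPendingDepth 3
set_option linter.unusedSectionVars false

open scoped Manifold ContDiff Topology
open Vale.Agent.P272.K Vale.Agent.P285.H281.FD Vale.Agent.P267.H175 Set Filter Metric

noncomputable section

namespace Vale.Agent.P277.H884.SW

open Vale.Agent.P277 Vale.Agent.P277.T3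

section
variable {Y : Type} [TopologicalSpace Y] [T2Space Y] [CompactSpace Y]
    [ChartedSpace (Cm 4) Y]
    [IsManifold 𝓘(ℂ, Cm 4) ω Y] {χ : Chart 4 Y → Cm 4 → Matrix (Fin 4) (Fin 4) ℂ}
    (hχ : IsKahler χ) {k s : ℕ} {M : Fin (k + s) → Bd Y} (hM : ∀ e, IsLB 4 (M e))
    (hnef : ∀ e : Fin k, Nef χ (M (Fin.castAdd s e))) {m : Fin (k + s) → ℕ}
    (hm : ∀ e : Fin k, 1 ≤ m (Fin.castAdd s e)) (hm0 : ∀ i : Fin s, m (Fin.natAdd k i) = 0)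
    {ρ : Fin (k + s) → ℝ} (hρ : ∀ e, 0 < ρ e) (hsum : ∑ e, ρ e * m e = 1) {H : Fin s → Type}
    [∀ i, TopologicalSpace (H i)] [∀ i, T2Space (H i)] [∀ i, CompactSpace (H i)]
    [∀ i, ConnectedSpace (H i)] [∀ i, ChartedSpace (Cm 3) (H i)]
    [∀ i, IsManifold 𝓘(ℂ, Cm 3) ω (H i)] {ι : ∀ i, H i → Y}
    {sg : ∀ i : Fin s, (M (Fin.natAdd k i)).ι → Y → ℂ}
    (hbd : ∀ i, IsBd (ι i) (M (Fin.natAdd k i)) (sg i))
    (hdisj : Pairwise fun i j => Disjoint (range (ι i)) (range (ι j)))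
    {W : CSp} {X Z : ℕ → CSp} {r : ℕ} {v : Y → W.pt} {p : W.pt → (X 0).pt} {P : Bd W.pt}
    {G : Fin r → Set Y} (hres : T2.IsRes v p P G) (hne : ∀ i, ¬ range (ι i) ⊆ ⋃ l, G l)
    {f : ∀ j, (X j).pt → (Z j).pt} {f' : ∀ j, (X (j + 1)).pt → (Z j).pt}
    {A : ∀ j, Set (Z j).pt} {L : ∀ j, Fin (k + s) → Bd (X j).pt} {c : ℕ → Fin (k + s) → ℕ}
    (hc : ∀ j e, 1 ≤ c j e) {n : Fin (k + s) → Fin r → ℤ}
    (hn : ∃ t, T2.IsCmpV (fun y => p (v y)) (L 0)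
      (fun e => (((Bd.can 4 Y).pow (m e)).mul (M e)).pow (c 0 e)) G n t)
    (hflip : ∀ j, IsFlipR (X j) (Z j) (X (j + 1)) (f j) (f' j) (A j) (L j) (L (j + 1)) (c j)
      (c (j + 1)) ρ)
    {a : Fin r → ℝ} (ha : ∀ l, a l = ∑ e, ρ e * n e l / c 0 e)
    (hb : ∀ i : Fin s, ρ (Fin.natAdd k i) < 1) (hklt : ∀ l, -1 < a l)
    (hd1 : ∀ l l', l ≠ l' → a l < 0 → a l' < 0 → Disjoint (G l) (G l'))
    (hd2 : ∀ l i, a l < 0 → Disjoint (G l) (range (ι i)))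
include hχ hM hnef hm hm0 hρ hsum hbd hdisj hres hne hc hn hflip ha hb hklt hd1 hd2

/-- the second parts of (KLT) and (KLTW) -/
theorem fin_regE {E : Set Y} (hE : E = univ ∨ IsWZ χ (fun y => p (v y)) (L 0) (c 0) ρ E)
    (hJ : ∃ J, ∀ j ≥ J, DimLe (X (j + 1)) 1 {x | f' j x ∈ Amin (f j) ∧
      ∃ l, a l < 0 ∧ G l ⊆ E ∧ ZD (fun y => p (v y)) (hit f f') (G l) ∧
        ∑ i : Fin s, (Str (Cor (⋃ l, G l) (fun y => p (v y)) f f' (j + 1))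
          (range (ι i))).indicator (fun _ => ρ (Fin.natAdd k i)) x < - a l})
    (hor : (∀ j, DimLe (X (j + 1)) 1 {x | f' j x ∈ Amin (f j) ∧ ¬ IsReg 4 (X (j + 1)) x}) ∨
      ∀ N, ∃ j ≥ N, HasRes (X j) ∨ ¬ DimLe (X (j + 1)) 1 {x | f' j x ∈ Amin (f j)}) : False := by
  have hor' : (∀ j, DimLe (X (j + 1)) 1 {x | f' j x ∈ Amin (f j) ∧ ¬ IsReg 4 (X (j + 1)) x ∧
        x ∈ closure (Val (Cor (⋃ l, G l) (fun y => p (v y)) f f' (j + 1))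
          (⋃ l ∈ {l | a l < 0 ∧ ZD (fun y => p (v y)) (hit f f') (G l)}, G l))}) ∨
      ∀ N, ∃ j ≥ N, HasRes (X j) ∨ ¬ DimLe (X (j + 1)) 1 {x | f' j x ∈ Amin (f j)} :=
    hor.imp_left fun h j => (h j).mono fun x hx => ⟨hx.1, hx.2.1⟩
  rcases hE with rfl | hE
  · refine (H762.G.stKlt Y χ hχ k s M hM hnef m hm hm0 ρ hρ hsum H ι sg hbd
      hdisj W X Z r v p P G hres hne f f' A L c hc n hn hflip a ha hb hklt hd1 hd2).2.1
      ⟨?_, hor'⟩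
    obtain ⟨J, hJ⟩ := hJ
    refine ⟨J, fun j hj => (hJ j hj).mono ?_⟩
    rintro x ⟨h1, l, h2, h3, h4⟩
    exact ⟨h1, l, h2, subset_univ _, h3, h4⟩
  · exact (H29.W.stKltW Y χ hχ k s M hM hnef m hm hm0 ρ hρ hsum H ι sg hbd
      hdisj W X Z r v p P G hres hne f f' A L c hc n hn hflip a ha hb hklt hd1 hd2).2.1 E hE
      ⟨hJ, hor'⟩

/-- infinitely many flips of klt pairs whose flipped surfaces are not contained in the singular
loci -/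
theorem fin_reg {E : Set Y} (hE : E = univ ∨ IsWZ χ (fun y => p (v y)) (L 0) (c 0) ρ E)
    (h1 : ∀ j, DimLe (X (j + 1)) 1 {x | f' j x ∈ Amin (f j) ∧ ¬ IsReg 4 (X (j + 1)) x})
    (h2 : ∀ j, DimLe (X (j + 1)) 1 {x | f' j x ∈ Amin (f j) ∧
      ∃ l, a l < 0 ∧ G l ⊆ E ∧ ZD (fun y => p (v y)) (hit f f') (G l) ∧
        ∑ i : Fin s, (Str (Cor (⋃ l, G l) (fun y => p (v y)) f f' (j + 1))
          (range (ι i))).indicator (fun _ => ρ (Fin.natAdd k i)) x < - a l}) : False :=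
  fin_regE hχ hM hnef hm hm0 hρ hsum hbd hdisj hres hne hc hn hflip ha hb hklt hd1 hd2 hE
    ⟨0, fun j _ => h2 j⟩ (Or.inl h1)

end

end Vale.Agent.P277.H884.SW
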