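import Vale.Agent.P277.H884.S.Setup

/-!
# P277, T6: the dual basis for the trace form of a branched covering
-/

open scoped Manifold ContDiff ComplexOrder Topology
open Vale.Agent.P272.K Vale.Agent.P285.H281.FD Vale.Agent.P267.H175 Set Metric Filter

noncomputable section

namespace Vale.Agent.P277.H884.S

open Vale.Agent.P277.TX Vale.Agent.P277.H19 Vale.Agent.P277.H371

variable {X : CSp} {V : Set X.pt} {G : X.pt → Cm 4} {c : Cm 4} {r : ℝ} {d : ℕ} {lam : X.pt → ℂ}
  {θ : Cm 4 → ℂ}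

/-- the matrix of the functions `a i` at the points `x k` -/
def am (a : Fin d → X.pt → ℂ) (x : Fin d → X.pt) : Matrix (Fin d) (Fin d) ℂ :=
  Matrix.of fun i k => a i (x k)

/-- traces of holomorphic functions are holomorphic -/
theorem exists_trace (hc : IsCov X V G c r d lam θ) {h : X.pt → ℂ} (hh : ∀ x ∈ V, X.Hol h x) :
    ∃ t : Cm 4 → ℂ, (∀ z ∈ ball c r, AnalyticAt ℂ t z) ∧
      ∀ z ∈ ball c r, θ z ≠ 0 → ∀ x : Fin d → X.pt, Enum V G z x → t z = ∑ k, h (x k) := by
  obtain ⟨P, hP1, -, hP3⟩ := hc.sym h hh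
  refine ⟨fun z => -(P z).coeff (d - 1), fun z hz => ((hP1 z hz).2.2 _).neg,
    fun z hz hθ x hx => ?_⟩
  have h2 := Polynomial.prod_X_sub_C_coeff_card_pred (Finset.univ : Finset (Fin d))
    (fun k => h (x k)) (by rw [Finset.card_univ, Fintype.card_fin]; exact hc.dpos)
  rw [Finset.card_univ, Fintype.card_fin] at h2
  show -(P z).coeff (d - 1) = _
  rw [hP3 z hz hθ x hx, h2, neg_neg]

theorem analyticAt_adj {m : ℕ} {F : Cm 4 → Matrix (Fin m) (Fin m) ℂ} {z : Cm 4}
    (hF : ∀ i j, AnalyticAt ℂ (fun z => F z i j) z) (i j : Fin m) :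
    AnalyticAt ℂ (fun z => (F z).adjugate i j) z := by
  have h1 : (fun z => (F z).adjugate i j) = fun z =>
      ∑ σ : Equiv.Perm (Fin m), (Equiv.Perm.sign σ : ℂ) *
        ∏ k, ((F z).updateRow j (Pi.single i 1)) (σ k) k := by
    funext z
    rw [Matrix.adjugate_apply, Matrix.det_apply']
  rw [h1]
  refine Finset.analyticAt_fun_sum _ fun σ _ => analyticAt_const.mul ?_
  refine Finset.analyticAt_fun_prod _ fun k _ => ?_
  by_cases hk : σ k = j
  · simp only [Matrix.updateRow_apply, hk, if_true]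
    exact analyticAt_const
  · simp only [Matrix.updateRow_apply, hk, if_false]
    exact hF _ _

/-- the numerators of the dual functions -/
theorem exists_dual (hc : IsCov X V G c r d lam θ) {a : Fin d → X.pt → ℂ}
    (ha : ∀ i, ∀ x ∈ V, X.Hol (a i) x) :
    ∃ Nm : Fin d → X.pt → ℂ, (∀ j, ∀ x ∈ V, X.Hol (Nm j) x) ∧
      ∀ z ∈ ball c r, θ z ≠ 0 → ∀ x : Fin d → X.pt, Enum V G z x → ∀ k j,
        Nm j (x k) = (am a x).det * (am a x).adjugate k j := by
  choose t ht1 ht2 using fun i j => exists_trace hc (h := fun x => a i x * a j x)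
    fun x hx => hol_mul (ha i x hx) (ha j x hx)
  set Tm : Cm 4 → Matrix (Fin d) (Fin d) ℂ := fun z => Matrix.of fun i j => t i j z with hTm
  refine ⟨fun j x => ∑ i, a i x * (Tm (G x)).adjugate i j, fun j x hx => ?_,
    fun z hz hθ x hx k j => ?_⟩
  · refine hol_sum _ fun i _ => hol_mul (ha i x hx) ?_
    exact hol_comp (f := fun i y => G y i) (G := fun z => (Tm z).adjugate i j)
      (fun i => hc.holo x hx i) (analyticAt_adj (fun i j => ht1 i j _ (hc.maps x hx)) i j)
  · have hG : G (x k) = z := ((hx.2 (x k)).1 ⟨k, rfl⟩).2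
    have h1 : Tm z = am a x * (am a x).transpose := by
      ext i j
      rw [Matrix.mul_apply]
      exact ht2 i j z hz hθ x hx
    simp only [hG, h1]
    have h2 : ∑ i, a i (x k) * (am a x * (am a x).transpose).adjugate i j =
        ((am a x).transpose * (am a x * (am a x).transpose).adjugate) k j := by
      rw [Matrix.mul_apply]
      rfl
    rw [h2, Matrix.adjugate_mul_distrib, ← Matrix.mul_assoc, Matrix.mul_adjugate,
      Matrix.det_transpose, Matrix.smul_mul, Matrix.one_mul, Matrix.smul_apply, smul_eq_mul]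

theorem coeff_prod_le {ι : Type*} {M : ℝ} (hM : 0 ≤ M) (s : Finset ι) {u : ι → ℂ}
    (hu : ∀ i ∈ s, ‖u i‖ ≤ M) (l : ℕ) :
    ‖(∏ i ∈ s, (Polynomial.X - Polynomial.C (u i))).coeff l‖ ≤ (1 + M) ^ s.card := by
  classical
  induction s using Finset.induction_on generalizing l with
  | empty =>
    rw [Finset.prod_empty, Finset.card_empty, pow_zero, Polynomial.coeff_one]
    split_ifs <;> simp
  | insert a s ha ih =>
    rw [Finset.prod_insert ha, Finset.card_insert_of_notMem ha, sub_mul, Polynomial.coeff_sub,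
      Polynomial.coeff_C_mul, pow_succ]
    have h1 := fun l => ih (fun i hi => hu i (Finset.mem_insert_of_mem hi)) l
    have h2 := hu a (Finset.mem_insert_self a s)
    have h3 : ‖(Polynomial.X * ∏ i ∈ s, (Polynomial.X - Polynomial.C (u i))).coeff l‖ ≤
        (1 + M) ^ s.card := by
      cases l with
      | zero =>
        rw [Polynomial.coeff_X_mul_zero, norm_zero]
        positivity
      | succ l =>
        rw [Polynomial.coeff_X_mul]
        exact h1 l
    refine (norm_sub_le _ _).trans ?_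
    rw [norm_mul]
    calc _ ≤ (1 + M) ^ s.card + M * (1 + M) ^ s.card := by
          refine add_le_add h3 (mul_le_mul h2 (h1 l) (norm_nonneg _) hM)
      _ = _ := by ring

/-- the dual functions, multiplied by the differences of a function `h`, are bounded -/
theorem dual_bd (hc : IsCov X V G c r d lam θ) {a : Fin d → X.pt → ℂ} {b : Cm 4 → ℂ}
    {h : X.pt → ℂ} (hh : ∀ x ∈ V, X.Hol h x)
    (hgen : ∀ l : Fin d, Gen V G c r a b (fun x => h x ^ (l : ℕ))) {z₀ : Cm 4}
    (hz₀ : z₀ ∈ ball c r) (hbc : ContinuousAt b z₀) (hb : b z₀ ≠ 0) :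
    ∃ C : ℝ, 0 ≤ C ∧ ∀ᶠ z in 𝓝 z₀, θ z ≠ 0 → ∀ x : Fin d → X.pt, Enum V G z x →
      (am a x).det ≠ 0 → ∀ k j, ‖(am a x)⁻¹ k j‖ *
        ∏ l ∈ Finset.univ.erase k, ‖h (x k) - h (x l)‖ ≤ C := by
  classical
  choose ρ hρa hρ using hgen
  -- bounds
  obtain ⟨R, hR0, hR⟩ : ∃ R : ℝ, 0 ≤ R ∧ ∀ᶠ z in 𝓝 z₀, ∀ l i, ‖ρ l i z‖ ≤ R := by
    refine ⟨∑ l, ∑ i, (‖ρ l i z₀‖ + 1), by positivity, ?_⟩
    rw [eventually_all]; intro l
    rw [eventually_all]; intro i
    filter_upwards [(hρa l i z₀ hz₀).continuousAt.norm.eventually_lt_const (lt_add_one _)] with z hz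
    have h1 := Finset.single_le_sum (f := fun i => ‖ρ l i z₀‖ + 1) (fun _ _ => by positivity)
      (Finset.mem_univ i)
    have h2 := Finset.single_le_sum (f := fun l => ∑ i, (‖ρ l i z₀‖ + 1))
      (fun _ _ => by positivity) (Finset.mem_univ l)
    linarith
  obtain ⟨M, hM0, hM⟩ : ∃ M : ℝ, 0 ≤ M ∧ ∀ᶠ z in 𝓝 z₀, ∀ y ∈ V, G y = z → ‖h y‖ ≤ M := by
    have hfin := (hc.finite z₀ hz₀).1
    obtain ⟨M, hM⟩ := (hfin.image fun y => ‖h y‖).bddAbove
    refine ⟨|M| + 1, by positivity, ?_⟩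
    have h1 := cov_eventually hc hz₀ (W := {y | ‖h y‖ < |M| + 1}) fun y hy hyz => by
      refine (hol_continuousAt (hh y hy)).norm.eventually_lt_const ?_
      have := hM ⟨y, ⟨hy, hyz⟩, rfl⟩
      linarith [le_abs_self M]
    filter_upwards [h1] with z hz y hy hyz
    exact (hz y hy hyz).le
  refine ⟨d * ((1 + M) ^ d * R) * (‖b z₀‖ / 2)⁻¹, by positivity, ?_⟩
  have hb2 : ∀ᶠ z in 𝓝 z₀, ‖b z₀‖ / 2 < ‖b z‖ := by
    refine hbc.norm.eventually_const_lt ?_
    have := norm_pos_iff.2 hb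
    linarith
  filter_upwards [hR, hM, hb2] with z h1 h2 h3 hθ x hx hdet k j
  have hxV : ∀ l, x l ∈ V ∧ G (x l) = z := fun l => (hx.2 (x l)).1 ⟨l, rfl⟩
  have hb0 : 0 < ‖b z₀‖ := norm_pos_iff.2 hb
  have hbz : b z ≠ 0 := by
    rw [← norm_pos_iff]
    exact (half_pos hb0).trans h3
  set p : Polynomial ℂ := ∏ l ∈ Finset.univ.erase k, (Polynomial.X - Polynomial.C (h (x l)))
    with hp
  have hcard : (Finset.univ.erase k : Finset (Fin d)).card = d - 1 := by
    rw [Finset.card_erase_of_mem (Finset.mem_univ k), Finset.card_univ, Fintype.card_fin]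
  have hpd : p.natDegree < d := by
    rw [hp, Polynomial.natDegree_finsetProd_X_sub_C_eq_card, hcard]
    have := k.2
    omega
  have hpe : ∀ y, p.eval y = ∑ l : Fin d, p.coeff l * y ^ (l : ℕ) := by
    intro y
    rw [Polynomial.eval_eq_sum_range' hpd, Finset.sum_range]
  set w : Fin d → ℂ := fun i => ∑ l : Fin d, p.coeff l * ρ l i z with hw
  have hwA : Matrix.vecMul w (am a x) = Pi.single k (b z * p.eval (h (x k))) := by
    ext l
    have e1 : Matrix.vecMul w (am a x) l = b z * p.eval (h (x l)) := by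
      simp only [Matrix.vecMul, dotProduct, hw, am, Matrix.of_apply]
      rw [hpe, Finset.mul_sum]
      simp only [Finset.sum_mul]
      rw [Finset.sum_comm]
      refine Finset.sum_congr rfl fun i _ => ?_
      have e2 := hρ i (x l) (hxV l).1
      rw [(hxV l).2] at e2
      calc ∑ m, p.coeff i * ρ i m z * a m (x l) = p.coeff i * ∑ m, ρ i m z * a m (x l) := by
            rw [Finset.mul_sum]
            exact Finset.sum_congr rfl fun m _ => by ring
        _ = _ := by rw [← e2]; ring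
    rw [e1]
    by_cases hlk : l = k
    · subst hlk
      rw [Pi.single_eq_same]
    · rw [Pi.single_eq_of_ne hlk]
      have : p.eval (h (x l)) = 0 := by
        rw [hp, Polynomial.eval_prod]
        exact Finset.prod_eq_zero (Finset.mem_erase.2 ⟨hlk, Finset.mem_univ l⟩) (by simp)
      rw [this, mul_zero]
  have hw2 : w j = b z * p.eval (h (x k)) * (am a x)⁻¹ k j := by
    have e1 := congrArg (fun u => Matrix.vecMul u (am a x)⁻¹) hwA
    simp only [Matrix.vecMul_vecMul] at e1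
    rw [Matrix.mul_nonsing_inv _ (isUnit_iff_ne_zero.2 hdet), Matrix.vecMul_one] at e1
    rw [e1]
    simp [Matrix.single_vecMul]
  have hev : ‖p.eval (h (x k))‖ = ∏ l ∈ Finset.univ.erase k, ‖h (x k) - h (x l)‖ := by
    rw [hp, Polynomial.eval_prod, norm_prod]
    exact Finset.prod_congr rfl fun l _ => by simp
  have hwn : ‖w j‖ ≤ d * ((1 + M) ^ d * R) := by
    refine (norm_sum_le _ _).trans ?_
    have e1 : ∀ l ∈ (Finset.univ : Finset (Fin d)), ‖p.coeff l * ρ l j z‖ ≤ (1 + M) ^ d * R := by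
      intro l _
      rw [norm_mul]
      refine mul_le_mul ?_ (h1 l j) (norm_nonneg _) (by positivity)
      refine (coeff_prod_le hM0 _ (fun l _ => h2 _ (hxV l).1 (hxV l).2) l).trans ?_
      refine pow_le_pow_right₀ (by linarith) ?_
      rw [hcard]; omega
    refine (Finset.sum_le_card_nsmul _ _ _ e1).trans ?_
    rw [Finset.card_univ, Fintype.card_fin, nsmul_eq_mul]
  rw [← hev]
  have e1 : ‖w j‖ = ‖b z‖ * (‖(am a x)⁻¹ k j‖ * ‖p.eval (h (x k))‖) := by
    rw [hw2, norm_mul, norm_mul]; ring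
  rw [e1] at hwn
  have e2 : 0 ≤ ‖(am a x)⁻¹ k j‖ * ‖p.eval (h (x k))‖ := by positivity
  rw [← div_eq_mul_inv, le_div_iff₀ (by positivity)]
  nlinarith

end Vale.Agent.P277.H884.S
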