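import Vale.Agent.P277.H884.S.Setup

/-!
# P277, T6: the key inequality for each line bundle, for arbitrary lifts
-/

open scoped Manifold ContDiff ComplexOrder Topology
open Vale.Agent.P272.K Vale.Agent.P285.H281.FD Vale.Agent.P267.H175 Set Metric Filter

noncomputable section

namespace Vale.Agent.P277.H884.S

open Vale.Agent.P277.TX Vale.Agent.P277.H19 Vale.Agent.P277.H371 Vale.Agent.P277.T2
open Vale.Agent.P277.H335.RC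

/-- lifts with upper bounds for the frames and the Jacobian (`VL` without positivity) -/
structure VL0 {Y : Type} [TopologicalSpace Y] [ChartedSpace (Cm 4) Y] {X : CSp} (O : Set Y)
    (v : Y → X.pt) {k : ℕ} (L : Fin k → Bd X.pt) (M : Fin k → Bd Y) (m Q : Fin k → ℕ)
    (T : ∀ e, (L e).ι → ((((Bd.can 4 Y).pow (m e)).mul (M e)).pow (Q e)).ι → Y → ℂ)
    (φ : Cm 4 → X.pt) (w₁ : Cm 4) (i₀ : ∀ e, (L e).ι) (γ : Cm 4 → Y)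
    (ch : Chart 4 Y) (μ : ∀ e, (M e).ι) (τ : Fin k → ℝ) (J : ℕ) : Prop where
  cont : ContinuousAt γ w₁
  at' : At ch (γ w₁)
  mem : ∀ e, γ w₁ ∈ (M e).U (μ e)
  an : AnalyticAt ℂ (fun w => ch (γ w)) w₁
  lift : ∀ᶠ w in 𝓝 w₁, φ w ∈ v '' O → γ w ∈ O ∧ v (γ w) = φ w
  bdT : ∀ e, ∃ C : ℝ, ∀ᶠ w in 𝓝 w₁, w 0 ≠ 0 → φ w ∈ v '' O →
    ‖T e (i₀ e) (ch, μ e) (γ w)‖ ≤ C * ‖w 0‖ ^ τ e
  bdJ : ∃ C : ℝ, ∀ᶠ w in 𝓝 w₁, ‖(fderiv ℂ (fun w => ch (γ w)) w).det‖ ≤ C * ‖w 0‖ ^ J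

theorem VL0.of_vl {Y : Type} [TopologicalSpace Y] [ChartedSpace (Cm 4) Y] {X : CSp} {O : Set Y}
    {v : Y → X.pt} {k : ℕ} {L : Fin k → Bd X.pt} {M : Fin k → Bd Y} {m Q : Fin k → ℕ}
    {T : ∀ e, (L e).ι → ((((Bd.can 4 Y).pow (m e)).mul (M e)).pow (Q e)).ι → Y → ℂ}
    {ρ : Fin k → ℝ} {φ : Cm 4 → X.pt} {w₁ : Cm 4} {i₀ : ∀ e, (L e).ι} {γ : Cm 4 → Y}
    {ch : Chart 4 Y} {μ : ∀ e, (M e).ι} {τ : Fin k → ℝ} {J : ℕ}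
    (h : VL O v L M m Q T ρ φ w₁ i₀ γ ch μ τ J) : VL0 O v L M m Q T φ w₁ i₀ γ ch μ τ J :=
  ⟨h.cont, h.at', h.mem, h.an, h.lift, h.bdT, h.bdJ⟩

section
variable {Y : Type} [TopologicalSpace Y] [T2Space Y] [CompactSpace Y] [ChartedSpace (Cm 4) Y]
  [IsManifold 𝓘(ℂ, Cm 4) ω Y] {X : CSp} {S V : Set X.pt} {G : X.pt → Cm 4} {r : ℝ}
  {d : ℕ} {lam : X.pt → ℂ} {θ : Cm 4 → ℂ} {n : ℕ} {ζ : Fin n → X.pt → ℂ} {a : Fin d → X.pt → ℂ}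
  {b κ : Cm 4 → ℂ} {N : ℕ} {s : Fin d → ℕ} {σ : Equiv.Perm (Fin d)} {φ : Fin d → Cm 4 → X.pt}
  {w₁ : Cm 4} {O : Set Y}
  {v : Y → X.pt} {k : ℕ} {L : Fin k → Bd X.pt} {M : Fin k → Bd Y} {m Q : Fin k → ℕ}
  {T : ∀ e, (L e).ι → ((((Bd.can 4 Y).pow (m e)).mul (M e)).pow (Q e)).ι → Y → ℂ}
  {χ : Chart 4 Y → Cm 4 → Matrix (Fin 4) (Fin 4) ℂ}
  {i₀ : ∀ e, (L e).ι} {γ : Fin d → Cm 4 → Y} {ch : Fin d → Chart 4 Y}
  {μ : Fin d → ∀ e, (M e).ι} {τ : Fin d → Fin k → ℝ} {J : Fin d → ℕ}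

/-- for every nef `M e` -/
theorem stp_key (h : Stp X S V G r d lam θ ζ a b κ N s σ φ w₁)
    (hχ : IsKahler χ) (hM : ∀ e, IsLB 4 (M e)) (hNef : ∀ e, Nef χ (M e)) (hm : ∀ e, 1 ≤ m e)
    (hv : IsOpenEmb X O v) (hO : DimLe X 2 (v '' O)ᶜ)
    (hL : ∀ e, IsLBx X (L e)) (hQ : ∀ e, 1 ≤ Q e)
    (hT : ∀ e, IsIsoY O v (L e) ((((Bd.can 4 Y).pow (m e)).mul (M e)).pow (Q e)) (T e))
    (hVL : ∀ e, V ⊆ (L e).U (i₀ e))
    (hl : ∀ k, VL0 O v L M m Q T (φ k) w₁ i₀ (γ k) (ch k) (μ k) (τ k) (J k)) (e : Fin k) :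
    (∑ k, (τ k e / Q e + m e * (J k + 1 - 2 * s k)) / s k) + m e * (2 * ((d : ℝ) - 1)) ≤ 0 := by
  have hs0 : ∀ k, (0 : ℝ) < s k := fun k => by exact_mod_cast (h.s1 k).1
  have hQ0 : (0 : ℝ) < Q e := by exact_mod_cast hQ e
  obtain ⟨Cκ, hCκ0, hCκ⟩ := kappa_le h.good h.hola h.κeq h.w0 (mem_ball_self h.good.pos)
  have hp : ∃ C : ℝ, 0 < C ∧ ∀ᶠ w in 𝓝 w₁, w 0 ≠ 0 → θ (bl w) ≠ 0 →
      ‖κ (bl w)‖ ≤ C * ‖w 0‖ ^ ((2 * (d - 1) : ℕ) : ℝ) := ⟨Cκ, hCκ0, by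
    filter_upwards [hCκ] with w h1 _ h3
    rw [Real.rpow_natCast]
    exact h1 h3⟩
  have key := contraR (r := r) (c := bl w₁) (V := V) (G := G) (lam := lam) (θ := θ) (b := b)
    (κ := κ) (a := a) (ζ := ζ) (χ := χ) (N := N) (s := s) (φ := φ) (w₁ := w₁) (γ := γ)
    (e := ch) (μ := fun k => μ k e) (α := fun k => τ k e) (j := J) (K := 1)
    (p := ((2 * (d - 1) : ℕ) : ℝ))
    (L := L e) (M := M e) (m := m e) (Q := Q e) (T := T e) (i₀ := i₀ e)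
    H19.stThin H19.stBr H19.stPush TD.stCoreX hχ (hM e) (hNef e) hv hO h.good.toIsCov h.coord
    h.bne h.genl h.gen h.κan h.κeq (hL e) (hT e)
    (hVL e) (by rw [mul_one]; exact Nat.mul_pos (hm e) (hQ e)) h.w0
    (mem_ball_self h.good.pos) h.θne h.N1 (fun k => ⟨(h.s1 k).1, (h.s1 k).2.2⟩)
    (fun k => (h.pui k).mono fun w hw => ⟨hw.1.1, hw.2⟩) h.enum
    (fun k => ⟨(hl k).cont, (hl k).at', (hl k).mem e, (hl k).an, (hl k).lift,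
      analyticAt_const, Eventually.of_forall fun w _ => by simp⟩)
    (fun k => by simpa only [pow_one] using (hl k).bdT e) (fun k => (hl k).bdJ) hp
  have h1 : (0 : ℝ) ≤ 1 / (2 * Q e) := by positivity
  have h2 := mul_le_mul_of_nonneg_left key h1
  rw [mul_zero, mul_add, Finset.mul_sum] at h2
  have h4 : ((2 * (d - 1) : ℕ) : ℝ) = 2 * ((d : ℝ) - 1) := by
    rw [Nat.cast_mul, Nat.cast_sub h.good.dpos]; push_cast; ring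
  refine le_trans (le_of_eq ?_) h2
  rw [h4]
  push_cast
  congr 1
  · refine Finset.sum_congr rfl fun k _ => ?_
    have h3 := (hs0 k).ne'
    field_simp
  · field_simp

end

end Vale.Agent.P277.H884.S
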