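import Vale.Agent.P277.H884.S.Neg1

/-!
# P277, T6: the functions `Ph` are locally bounded above
-/

open scoped Manifold ContDiff ComplexOrder Topology
open Vale.Agent.P272.K Vale.Agent.P285.H281.FD Vale.Agent.P267.H175 Set Metric Filter

noncomputable section

namespace Vale.Agent.P277.H884.S

open Vale.Agent.P277.TX Vale.Agent.P277.H19 Vale.Agent.P277.H371

theorem inv_eq {d : ℕ} {A : Matrix (Fin d) (Fin d) ℂ} (hA : A.det ≠ 0) (k j : Fin d) :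
    A.det * A.adjugate k j / A.det ^ 2 = A⁻¹ k j := by
  rw [Matrix.inv_def, Matrix.smul_apply, Ring.inverse_eq_inv', smul_eq_mul]
  field_simp

section one
variable {Y : Type} [TopologicalSpace Y] [ChartedSpace (Cm 4) Y]
  [IsManifold 𝓘(ℂ, Cm 4) ω Y] {X : CSp} {O : Set Y}
  {v : Y → X.pt} {V : Set X.pt} {G : X.pt → Cm 4}
  {L : Bd X.pt} {M : Bd Y} {m Q K : ℕ}
  {T : L.ι → ((((Bd.can 4 Y).pow m).mul M).pow Q).ι → Y → ℂ} {i₀ : L.ι}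

/-- `Jf_le` in the preferred chart -/
theorem Jf_le' (hM : IsLB 4 M) (hv : IsOpenEmb X O v) (hVo : IsOpen V)
    (hG : ∀ x ∈ V, ∀ i, X.Hol (fun y => G y i) x)
    (hL : IsLBx X L) (hT : IsIsoY O v L ((((Bd.can 4 Y).pow m).mul M).pow Q) T)
    (hVL : V ⊆ L.U i₀) (hA : 1 ≤ m * Q * K) {ψ : M.ι → Y → ℝ} (hψ : IsMet 4 M ψ)
    {idx : Y → M.ι} (hidx : ∀ y, y ∈ M.U (idx y)) (y₀ : Y) {y : Y} (hy : y ∈ O) (hyV : v y ∈ V) :
    ∃ C : ℝ, 0 ≤ C ∧ ∀ᶠ y' in 𝓝 y,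
      Jf hv y₀ G (Lam T v G i₀ K ψ idx) ((m * Q * K : ℕ) : ℝ) (v y') ≤
        C * ‖(fderiv ℂ (fun z => G (v ((chartAt (Cm 4) y).symm z)))
          ((chartAt (Cm 4) y) y')).det‖ := by
  set e : Chart 4 Y := chartAt (Cm 4) y with he'
  have he : At e y := at_chartAt _
  set μ : M.ι := idx y with hμ'
  have hμ : y ∈ M.U μ := hidx y
  set A : ℝ := ((m * Q * K : ℕ) : ℝ) with hAdef
  have hA0 : 0 < A := by
    rw [hAdef]; exact_mod_cast (by omega : 0 < m * Q * K)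
  have hecont : ContinuousAt e y := e.continuousAt he.2
  have hTc : ContinuousAt (T i₀ (e, μ)) y := by
    have h1 := (hT.holo y hy i₀ (e, μ) e he (hVL hyV) ⟨he, hμ⟩).1.continuousAt
    have h2 : ContinuousAt (fun y' => T i₀ (e, μ) (e.symm (e y'))) y :=
      ContinuousAt.comp (g := fun z => T i₀ (e, μ) (e.symm z)) (f := e) h1 hecont
    refine h2.congr ?_
    filter_upwards [e.open_source.mem_nhds he.2] with y' hy'
    rw [e.left_inv hy']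
  have hT0 : T i₀ (e, μ) y ≠ 0 := (hT.holo y hy i₀ (e, μ) e he (hVL hyV) ⟨he, hμ⟩).2
  have hψc : ContinuousAt (ψ μ) y := by
    have h1 := (hψ.smooth μ e y he hμ).continuousAt
    have h2 : ContinuousAt (fun y' => ψ μ (e.symm (e y'))) y :=
      ContinuousAt.comp (g := fun z => ψ μ (e.symm z)) (f := e) h1 hecont
    refine h2.congr ?_
    filter_upwards [e.open_source.mem_nhds he.2] with y' hy'
    rw [e.left_inv hy']
  set h : Y → ℝ := fun y' => Real.exp ((((Q * K : ℕ) : ℝ) * ψ μ y' -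
    2 * K * Real.log ‖T i₀ (e, μ) y'‖) / (2 * A)) with hh
  have hhc : ContinuousAt h y := by
    refine Real.continuous_exp.continuousAt.comp ?_
    refine ContinuousAt.div_const (ContinuousAt.sub (continuousAt_const.mul hψc)
      (continuousAt_const.mul ?_)) _
    exact hTc.norm.log (norm_ne_zero_iff.2 hT0)
  refine ⟨h y + 1, by positivity, ?_⟩
  filter_upwards [hv.isOpen.mem_nhds hy, (hv.continuousAt hy).eventually_mem (hVo.mem_nhds hyV),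
    e.open_source.mem_nhds he.2, (hM.isOpen μ).mem_nhds hμ,
    hhc.eventually_lt_const (lt_add_one _)] with y' h1 h2 h3 h4 h5
  have he1 : At e y' := ⟨he.1, h3⟩
  have hGa := an_G hv hG h1 h2 he1
  have hpos : 0 < h y' := Real.exp_pos _
  rw [← det_jacG hGa.differentiableAt]
  by_cases h0 : (jacG v G (chartAt (Cm 4) y') y').det = 0
  · rw [Jf_eq_zero hv y₀ G _ A h1 h0]
    exact mul_nonneg (hpos.le.trans h5.le) (norm_nonneg _)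
  · rw [Jf_eq hv y₀ G _ A h1 h0]
    have h0' : (jacG v G e y').det ≠ 0 := by
      intro h0'
      have h6 := congrArg Matrix.det (jacG_change (v := v) (G := G) he1 (at_chartAt y') hGa)
      rw [Matrix.det_mul, h0', zero_mul] at h6
      exact h0 h6
    have hT0' : T i₀ (e, μ) y' ≠ 0 := (hT.holo y' h1 i₀ (e, μ) e he1 (hVL h2) ⟨he1, h4⟩).2
    have hdi : ‖(jacG v G e y').det‖ ≠ 0 := norm_ne_zero_iff.2 h0'
    have hlog : Real.log (‖T i₀ (e, μ) y' ^ K * ((jacG v G e y').det⁻¹) ^ (m * Q * K)‖ ^ 2) =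
        2 * (K * Real.log ‖T i₀ (e, μ) y'‖ - A * Real.log ‖(jacG v G e y').det‖) := by
      rw [norm_mul, norm_pow, norm_pow, norm_inv, Real.log_pow, Real.log_mul
        (pow_ne_zero _ (norm_ne_zero_iff.2 hT0')) (pow_ne_zero _ (inv_ne_zero hdi)),
        Real.log_pow, Real.log_pow, Real.log_inv]
      rw [← hAdef]
      push_cast
      ring
    have hexp : Lam T v G i₀ K ψ idx y' / (2 * A) = (((Q * K : ℕ) : ℝ) * ψ μ y' -
        2 * K * Real.log ‖T i₀ (e, μ) y'‖) / (2 * A) + Real.log ‖(jacG v G e y').det‖ := by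
      rw [Lam_eq hM hv hG hL hT hψ hidx h1 h2 (hVL h2) he1 h0' h4,
        nY_eq hM hv hG hL hT h1 h2 (hVL h2) he1 h4, hlog]
      field_simp
      ring
    rw [hexp, Real.exp_add, Real.exp_log (norm_pos_iff.2 h0')]
    exact mul_le_mul_of_nonneg_right h5.le (norm_nonneg _)

end one

section
variable {Y : Type} [TopologicalSpace Y] [T2Space Y] [CompactSpace Y] [ChartedSpace (Cm 4) Y]
  [IsManifold 𝓘(ℂ, Cm 4) ω Y] {X : CSp} {O : Set Y}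
  {v : Y → X.pt} {V : Set X.pt} {G : X.pt → Cm 4} {c : Cm 4} {r : ℝ} {d : ℕ} {lam : X.pt → ℂ}
  {θ : Cm 4 → ℂ} {k : ℕ} {L : Fin k → Bd X.pt} {M : Fin k → Bd Y} {m Q : Fin k → ℕ}
  {T : ∀ e, (L e).ι → ((((Bd.can 4 Y).pow (m e)).mul (M e)).pow (Q e)).ι → Y → ℂ}
  {i₀ : ∀ e, (L e).ι} {ρ : Fin k → ℝ}

/-- the geometric mean of the functions `Jf` -/
def Jt (hv : IsOpenEmb X O v) (y₀ : Y) (G : X.pt → Cm 4)
    (T : ∀ e, (L e).ι → ((((Bd.can 4 Y).pow (m e)).mul (M e)).pow (Q e)).ι → Y → ℂ)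
    (i₀ : ∀ e, (L e).ι) (ρ : Fin k → ℝ)
    (ψ : ∀ e, (M e).ι → Y → ℝ) (idx : ∀ e, Y → (M e).ι) (x : X.pt) : ℝ :=
  ∏ e, Jf hv y₀ G (Lam (T e) v G (i₀ e) 1 (ψ e) (idx e)) ((m e * Q e * 1 : ℕ) : ℝ) x ^
    (ρ e * m e)

theorem Jt_eq (hv : IsOpenEmb X O v) (y₀ : Y) (hm : ∀ e, 1 ≤ m e) (hQ : ∀ e, 1 ≤ Q e)
    (ψ : ∀ e, (M e).ι → Y → ℝ) (idx : ∀ e, Y → (M e).ι) {y : Y}
    (hy : y ∈ O) (h0 : (jacG v G (chartAt (Cm 4) y) y).det ≠ 0) :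
    Jt hv y₀ G T i₀ ρ ψ idx (v y) = Real.exp (Lt T v G i₀ ρ ψ idx y / 2) := by
  unfold Jt Lt
  rw [Finset.sum_div, Real.exp_sum]
  refine Finset.prod_congr rfl fun e _ => ?_
  rw [Jf_eq hv y₀ G _ _ hy h0, ← Real.exp_mul]
  congr 1
  have h1 : (m e : ℝ) ≠ 0 := by exact_mod_cast Nat.one_le_iff_ne_zero.1 (hm e)
  have h2 : (Q e : ℝ) ≠ 0 := by exact_mod_cast Nat.one_le_iff_ne_zero.1 (hQ e)
  push_cast
  field_simp

theorem Jt_le (hM : ∀ e, IsLB 4 (M e)) (hv : IsOpenEmb X O v) (hVo : IsOpen V)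
    (hG : ∀ x ∈ V, ∀ i, X.Hol (fun y => G y i) x)
    (hL : ∀ e, IsLBx X (L e)) (hm : ∀ e, 1 ≤ m e) (hQ : ∀ e, 1 ≤ Q e)
    (hT : ∀ e, IsIsoY O v (L e) ((((Bd.can 4 Y).pow (m e)).mul (M e)).pow (Q e)) (T e))
    (hVL : ∀ e, V ⊆ (L e).U (i₀ e)) (hρ : ∀ e, 0 < ρ e) (hρm : ∑ e, ρ e * m e = 1)
    {ψ : ∀ e, (M e).ι → Y → ℝ} (hψ : ∀ e, IsMet 4 (M e) (ψ e))
    {idx : ∀ e, Y → (M e).ι} (hidx : ∀ e y, y ∈ (M e).U (idx e y))
    (y₀ : Y) {y : Y} (hy : y ∈ O) (hyV : v y ∈ V) :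
    ∃ C : ℝ, ∀ᶠ y' in 𝓝 y,
      Jt hv y₀ G T i₀ ρ ψ idx (v y') ≤
        C * ‖(fderiv ℂ (fun z => G (v ((chartAt (Cm 4) y).symm z)))
          ((chartAt (Cm 4) y) y')).det‖ := by
  choose C hC0 hC using fun e => Jf_le' (K := 1) (hM e) hv hVo hG (hL e) (hT e) (hVL e)
    (by rw [mul_one]; exact Nat.mul_pos (hm e) (hQ e)) (hψ e) (hidx e) y₀ hy hyV
  refine ⟨∏ e, C e ^ (ρ e * m e), ?_⟩
  filter_upwards [eventually_all.2 hC] with y' hy'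
  set D : ℝ := ‖(fderiv ℂ (fun z => G (v ((chartAt (Cm 4) y).symm z)))
          ((chartAt (Cm 4) y) y')).det‖ with hD
  have hD0 : 0 ≤ D := norm_nonneg _
  have hρm0 : ∀ e, 0 ≤ ρ e * m e := fun e => mul_nonneg (hρ e).le (Nat.cast_nonneg _)
  have h1 : D = ∏ e, D ^ (ρ e * m e) := by
    rw [← Real.rpow_sum_of_nonneg hD0 fun e _ => hρm0 e, hρm, Real.rpow_one]
  unfold Jt
  calc _ ≤ ∏ e, (C e * D) ^ (ρ e * m e) := by
        refine Finset.prod_le_prod (fun e _ => Real.rpow_nonneg (Jf_nonneg _ _ _ _ _ _) _)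
          fun e _ => Real.rpow_le_rpow (Jf_nonneg _ _ _ _ _ _) (hy' e) (hρm0 e)
    _ = (∏ e, C e ^ (ρ e * m e)) * ∏ e, D ^ (ρ e * m e) := by
        rw [← Finset.prod_mul_distrib]
        exact Finset.prod_congr rfl fun e _ => Real.mul_rpow (hC0 e) hD0
    _ = _ := by rw [← h1]

/-- the local bound -/
theorem locBdN (hM : ∀ e, IsLB 4 (M e)) (hv : IsOpenEmb X O v)
    (hc : IsCov X V G c r d lam θ)
    (hL : ∀ e, IsLBx X (L e)) (hm : ∀ e, 1 ≤ m e) (hQ : ∀ e, 1 ≤ Q e)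
    (hT : ∀ e, IsIsoY O v (L e) ((((Bd.can 4 Y).pow (m e)).mul (M e)).pow (Q e)) (T e))
    (hVL : ∀ e, V ⊆ (L e).U (i₀ e)) (hρ : ∀ e, 0 < ρ e) (hρm : ∑ e, ρ e * m e = 1)
    {n : ℕ} {ζ : Fin n → X.pt → ℂ} (hζ : IsCoord X V ζ)
    {a : Fin d → X.pt → ℂ} {b : Cm 4 → ℂ} (hb : ∀ z ∈ ball c r, ContinuousAt b z ∧ b z ≠ 0)
    (hgen : ∀ l : Fin d, ∀ f : Fin (l : ℕ) → Fin n, Gen V G c r a b (fun x => ∏ t, ζ (f t) x))
    (hgenl : ∀ l : Fin d, Gen V G c r a b (fun x => lam x ^ (l : ℕ)))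
    {κ : Cm 4 → ℂ} (hκ : ∀ z ∈ ball c r, θ z ≠ 0 → ∀ x : Fin d → X.pt, Enum V G z x →
      κ z = (Matrix.of fun i k => a i (x k)).det ^ 2)
    {ψ : ∀ e, (M e).ι → Y → ℝ} (hψ : ∀ e, IsMet 4 (M e) (ψ e))
    {idx : ∀ e, Y → (M e).ι} (hidx : ∀ e y, y ∈ (M e).U (idx e y))
    {Nm : Fin d → X.pt → ℂ} (hNm : ∀ z ∈ ball c r, θ z ≠ 0 → ∀ x : Fin d → X.pt, Enum V G z x →
      ∀ k j, Nm j (x k) = (am a x).det * (am a x).adjugate k j) (j : Fin d) :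
    LocBdAbove c r θ (G '' {x | x ∈ V ∧ ¬ ∃ y ∈ O, v y = x ∧ RankGe3 v G y})
      (Ph O v V G (fun x => Nm j x / κ (G x)) (Lt T v G i₀ ρ ψ idx)) := by
  rintro z₀ ⟨hz₀, hz₀E⟩
  have hO : ∀ x ∈ V, G x = z₀ → ∃ y ∈ O, v y = x ∧ RankGe3 v G y := by
    intro x hx hxz
    by_contra hcon
    exact hz₀E ⟨x, ⟨hx, hcon⟩, hxz⟩
  obtain ⟨y₀⟩ : Nonempty Y := by
    obtain ⟨-, p, hpV, hpG⟩ := hc.finite z₀ hz₀
    obtain ⟨y, -, -⟩ := hO p hpV hpG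
    exact ⟨y⟩
  obtain ⟨w, C₁, hC₁, h1⟩ := stBr1 hv hc hζ hz₀ hO (J := Jt hv y₀ G T i₀ ρ ψ idx)
    (fun x hx hxz => by
      obtain ⟨y, hy, hyx, -⟩ := hO x hx hxz
      obtain ⟨C, hC⟩ := Jt_le hM hv hc.isOpen hc.holo hL hm hQ hT hVL hρ hρm hψ hidx y₀ hy
        (by rw [hyx]; exact hx)
      exact ⟨y, hy, hyx, _, at_chartAt y, C, hC⟩)
  set h : X.pt → ℂ := fun x => ∑ j, w j * ζ j x with hh
  obtain ⟨C₂, hC₂, h2⟩ := dual_bd hc (h := h) (fun x hx => hol_sum _ fun j _ =>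
    hol_mul (hol_const _ _) (hζ.hol j x hx)) (fun l => gen_pow (hgen l) w) hz₀
    (hb z₀ hz₀).1 (hb z₀ hz₀).2
  refine ⟨Real.log (1 + d * (C₁ * C₂) ^ 2), ?_⟩
  filter_upwards [h1, h2, isOpen_ball.mem_nhds hz₀] with z d1 d2 hz hzE
  obtain ⟨hzE, hθ⟩ := hzE
  have hOz : ∀ x ∈ V, G x = z → x ∈ v '' O := by
    intro x hx hxz
    by_contra hcon
    refine hzE ⟨x, ⟨hx, ?_⟩, hxz⟩
    rintro ⟨y, hy, hyx, -⟩
    exact hcon ⟨y, hy, hyx⟩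
  obtain ⟨D, ρb, hzD, hDs, hbr⟩ := exists_br hv hc hz hθ hOz
  have hE := hbr.enum hv hzD
  rw [Ph_eq hv hbr hzD]
  have hκ0 : κ z ≠ 0 := kappa_ne_zero hc hgenl hκ hz hθ (hb _ hz).2
  set x : Fin d → X.pt := fun k => v (ρb k z) with hx
  have hκz : κ z = (am a x).det ^ 2 := hκ z hz hθ x hE
  have hdet : (am a x).det ≠ 0 := by
    intro h0
    rw [h0] at hκz
    exact hκ0 (by rw [hκz]; ring)
  refine Real.log_le_log (by positivity) ?_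
  have h3 : ∀ k' ∈ (Finset.univ : Finset (Fin d)),
      ‖(fun x => Nm j x / κ (G x)) (v (ρb k' z))‖ ^ 2 *
        Real.exp (Lt T v G i₀ ρ ψ idx (ρb k' z)) ≤ (C₁ * C₂) ^ 2 := by
    intro k' _
    have hG : G (x k') = z := ((hE.2 (x k')).1 ⟨k', rfl⟩).2
    have e1 : Nm j (x k') / κ (G (x k')) = (am a x)⁻¹ k' j := by
      rw [hG, hκz, hNm z hz hθ x hE k' j, inv_eq hdet]
    have e2 := Jt_eq (T := T) (i₀ := i₀) (ρ := ρ) (G := G) hv y₀ hm hQ ψ idx (hbr.mem z hzD k').1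
      (hbr.det_ne_zero hv hc.holo hzD (at_chartAt _))
    have e3 : Real.exp (Lt T v G i₀ ρ ψ idx (ρb k' z)) =
        Jt hv y₀ G T i₀ ρ ψ idx (x k') ^ 2 := by
      rw [e2, ← Real.exp_nat_mul]
      congr 1
      push_cast
      ring
    show ‖Nm j (x k') / κ (G (x k'))‖ ^ 2 * _ ≤ _
    rw [e1, e3, ← mul_pow]
    have e4 : 0 ≤ Jt hv y₀ G T i₀ ρ ψ idx (x k') := by rw [e2]; exact (Real.exp_pos _).le
    refine pow_le_pow_left₀ (by positivity) ?_ 2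
    have e5 := d1 hθ x hE k'
    have e6 := d2 hθ x hE hdet k' j
    calc ‖(am a x)⁻¹ k' j‖ * Jt hv y₀ G T i₀ ρ ψ idx (x k') ≤ ‖(am a x)⁻¹ k' j‖ *
          (C₁ * ∏ l ∈ Finset.univ.erase k', ‖h (x k') - h (x l)‖) :=
          mul_le_mul_of_nonneg_left e5 (norm_nonneg _)
      _ = C₁ * (‖(am a x)⁻¹ k' j‖ * ∏ l ∈ Finset.univ.erase k', ‖h (x k') - h (x l)‖) := by ring
      _ ≤ C₁ * C₂ := mul_le_mul_of_nonneg_left e6 hC₁
  have h4 := Finset.sum_le_card_nsmul _ _ _ h3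
  rw [Finset.card_univ, Fintype.card_fin, nsmul_eq_mul] at h4
  linarith

end

end Vale.Agent.P277.H884.S
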