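import Vale.Agent.P277.H884.S.Neg2
import Vale.Agent.P277.H884.S.Key

/-!
# P277, T6: the inequality for the dual functions
-/

open scoped Manifold ContDiff ComplexOrder Topology
open Vale.Agent.P272.K Vale.Agent.P285.H281.FD Vale.Agent.P267.H175 Set Metric Filter

noncomputable section

namespace Vale.Agent.P277.H884.S

open Vale.Agent.P277.TX Vale.Agent.P277.H19 Vale.Agent.P277.H371 Vale.Agent.P277.T2
open Vale.Agent.P277.H335.RC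

section br
variable {Y : Type} [TopologicalSpace Y] [ChartedSpace (Cm 4) Y] {X : CSp} {O : Set Y}
  {v : Y → X.pt} {V : Set X.pt} {G : X.pt → Cm 4} {d : ℕ}
  {D : Set (Cm 4)} {ρ : Fin d → Cm 4 → Y} {z : Cm 4}

theorem br_an (hv : IsOpenEmb X O v) (hb : IsBr O v V G D ρ) (hz : z ∈ D) {f : X.pt → ℂ}
    (hf : ∀ x ∈ V, X.Hol f x) (k : Fin d) : AnalyticAt ℂ (fun w => f (v (ρ k w))) z := by
  obtain ⟨g1, g2, g3⟩ := hb.mem z hz k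
  set e : Chart 4 Y := chartAt (Cm 4) (ρ k z) with he'
  have he : At e (ρ k z) := at_chartAt _
  have h1 := (hv.hol_iff g1 he).1 (hf _ g2)
  have h2 := hb.an z hz k e he
  have h3 := AnalyticAt.comp (g := fun u => f (v (e.symm u))) (f := fun w => e (ρ k w)) h1 h2
  refine h3.congr ?_
  filter_upwards [(hb.cont z hz k).eventually_mem (e.open_source.mem_nhds he.2)] with w hw
  simp only [Function.comp]
  rw [e.left_inv hw]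

end br

section
variable {Y : Type} [TopologicalSpace Y] [T2Space Y] [CompactSpace Y] [ChartedSpace (Cm 4) Y]
  [IsManifold 𝓘(ℂ, Cm 4) ω Y] {X : CSp} {V : Set X.pt} {G : X.pt → Cm 4} {c : Cm 4} {r : ℝ}
  {d : ℕ} {lam : X.pt → ℂ} {θ : Cm 4 → ℂ} {n : ℕ} {ζ : Fin n → X.pt → ℂ} {a : Fin d → X.pt → ℂ}
  {b κ : Cm 4 → ℂ} {N : ℕ} {s : Fin d → ℕ} {φ : Fin d → Cm 4 → X.pt}
  {w₁ : Cm 4} {O : Set Y}
  {v : Y → X.pt} {k : ℕ} {L : Fin k → Bd X.pt} {M : Fin k → Bd Y} {m Q : Fin k → ℕ}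
  {T : ∀ e, (L e).ι → ((((Bd.can 4 Y).pow (m e)).mul (M e)).pow (Q e)).ι → Y → ℂ}
  {χ : Chart 4 Y → Cm 4 → Matrix (Fin 4) (Fin 4) ℂ} {ρ : Fin k → ℝ}
  {i₀ : ∀ e, (L e).ι} {γ : Fin d → Cm 4 → Y} {ch : Fin d → Chart 4 Y}
  {μ : Fin d → ∀ e, (M e).ι} {τ : Fin d → Fin k → ℝ} {J : Fin d → ℕ}

/-- lower bound for `Ph` along the wedge -/
theorem Ph_ge (hM : ∀ e, IsLB 4 (M e)) (hv : IsOpenEmb X O v)
    (hc : IsCov X V G c r d lam θ)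
    (hL : ∀ e, IsLBx X (L e)) (hm : ∀ e, 1 ≤ m e) (hQ : ∀ e, 1 ≤ Q e)
    (hT : ∀ e, IsIsoY O v (L e) ((((Bd.can 4 Y).pow (m e)).mul (M e)).pow (Q e)) (T e))
    (hVL : ∀ e, V ⊆ (L e).U (i₀ e)) (hρ : ∀ e, 0 < ρ e) (hρm : ∑ e, ρ e * m e = 1)
    (h0 : w₁ 0 = 0) (hN : 1 ≤ N)
    (hs : ∀ k, 1 ≤ s k ∧ s k ∣ N)
    (hφ : ∀ k, ∀ᶠ w in 𝓝 w₁, ContinuousAt (φ k) w ∧ φ k w ∈ V ∧ G (φ k w) = pw (s k) w)
    (hE : ∀ᶠ w in 𝓝 w₁, w 0 ≠ 0 → Enum V G ![w 0 ^ N, w 1 * w 0 ^ N, w 2, w 3]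
      (fun k => φ k ![w 0 ^ (N / s k), w 1, w 2, w 3]))
    (hl : ∀ k, VL0 O v L M m Q T (φ k) w₁ i₀ (γ k) (ch k) (μ k) (τ k) (J k)) (k₀ : Fin d)
    {Dj : X.pt → ℂ} {o : ℤ} {c₀ : ℝ} (hc₀ : 0 < c₀)
    (ho : ∀ᶠ w in 𝓝 w₁, w 0 ≠ 0 → c₀ * ‖w 0‖ ^ o ≤ ‖Dj (φ k₀ w)‖)
    {ψ : ∀ e, (M e).ι → Y → ℝ} (hψ : ∀ e, IsMet 4 (M e) (ψ e))
    {idx : ∀ e, Y → (M e).ι} (hidx : ∀ e y, y ∈ (M e).U (idx e y)) :
    ∃ C : ℝ, ∀ᶠ w in 𝓝 w₁, w 0 ≠ 0 → (∀ x ∈ V, G x = bl w → x ∈ v '' O) →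
      (2 * ((∑ e, ρ e * (τ k₀ e / Q e)) + J k₀ + 1 - 2 * s k₀ - o) / s k₀) *
        Real.log (1 / ‖w 0‖) - C ≤ Ph O v V G Dj (Lt T v G i₀ ρ ψ idx) (bl w) := by
  have hnl : ∀ k e, NLift O v (L e) (M e) (m e) (Q e) (T e) (i₀ e) 0 (φ k) w₁ (γ k) (ch k) (μ k e)
      (fun _ => 1) := fun k e =>
    ⟨(hl k).cont, (hl k).at', (hl k).mem e, (hl k).an, (hl k).lift,
      analyticAt_const, Eventually.of_forall fun w _ => by simp⟩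
  choose C hC using fun e => Lam_geR (K := 1) (α := τ k₀ e) (j := J k₀) (hM e) hv hc.holo (hL e)
    (hT e) (hVL e) (hψ e) (hidx e) (hnl k₀ e) (hs k₀).1 (hφ k₀)
    (by simpa only [pow_one] using (hl k₀).bdT e) (hl k₀).bdJ
  obtain ⟨e₁⟩ : Nonempty (Fin k) := by
    by_contra hcon
    have : IsEmpty (Fin k) := not_nonempty_iff.1 hcon
    simp at hρm
  have hm0 : ∀ e, (m e : ℝ) ≠ 0 := fun e => by exact_mod_cast Nat.one_le_iff_ne_zero.1 (hm e)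
  have hQ0 : ∀ e, (Q e : ℝ) ≠ 0 := fun e => by exact_mod_cast Nat.one_le_iff_ne_zero.1 (hQ e)
  refine ⟨(∑ e, ρ e / Q e * C e) - 2 * Real.log c₀, ?_⟩
  have hP : ∀ k, ∀ᶠ w in 𝓝 w₁, ((w 0 ≠ 0 → k = k₀ → c₀ * ‖w 0‖ ^ o ≤ ‖Dj (φ k₀ w)‖) ∧
    (∀ e, k = k₀ → w 0 ≠ 0 → φ k₀ w ∈ v '' O →
      (2 * τ k₀ e + 2 * ((m e * Q e * 1 : ℕ) : ℝ) * (J k₀ + 1 - 2 * s k₀)) *
        Real.log (1 / ‖w 0‖) - C e ≤ Lam (T e) v G (i₀ e) 1 (ψ e) (idx e) (γ k₀ w))) ∧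
    (φ k w ∈ v '' O → γ k w ∈ O ∧ v (γ k w) = φ k w) := by
    intro k
    refine (Eventually.and ?_ ?_).and (hl k).lift
    · filter_upwards [ho] with w h1 h2 _
      exact h1 h2
    · rw [eventually_all]
      intro e
      filter_upwards [hC e] with w h1 _ h2 h3
      exact h1 h2 h3
  filter_upwards [wedge_pts hN hs h0 hE hP] with w d1 hw hO
  obtain ⟨u, hu, hen⟩ := d1 hw
  have hφO : ∀ k, φ k (u k) ∈ v '' O := fun k => by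
    obtain ⟨g1, g2⟩ := (hen.2 (φ k (u k))).1 ⟨k, rfl⟩
    exact hO _ g1 g2
  have hy : ∀ k, γ k (u k) ∈ O ∧ v (γ k (u k)) = φ k (u k) := fun k =>
    (hu k).2.2.2 (hφO k)
  have hen' : Enum V G (bl w) (fun k => v (γ k (u k))) := by
    have h1 : (fun k => v (γ k (u k))) = fun k => φ k (u k) := funext fun k => (hy k).2
    rw [h1]; exact hen
  rw [Ph, finsum_enum hv (fun k => (hy k).1) hen']
  have ht : 0 < ‖w 0‖ := norm_pos_iff.2 hw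
  have hu0 : 0 < ‖u k₀ 0‖ := norm_pos_iff.2 (hu k₀).2.1
  have hD1 := (hu k₀).2.2.1.1 (hu k₀).2.1 rfl
  have hD2 : 0 < c₀ * ‖u k₀ 0‖ ^ o := mul_pos hc₀ (zpow_pos hu0 _)
  have hD3 : 0 < ‖Dj (φ k₀ (u k₀))‖ := hD2.trans_le hD1
  -- lower bound by one term
  have h1 : ‖Dj (φ k₀ (u k₀))‖ ^ 2 * Real.exp (Lt T v G i₀ ρ ψ idx (γ k₀ (u k₀))) ≤
      1 + ∑ k, ‖Dj (v (γ k (u k)))‖ ^ 2 * Real.exp (Lt T v G i₀ ρ ψ idx (γ k (u k))) := by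
    have h2 := Finset.single_le_sum (f := fun k => ‖Dj (v (γ k (u k)))‖ ^ 2 *
      Real.exp (Lt T v G i₀ ρ ψ idx (γ k (u k)))) (fun _ _ => by positivity)
      (Finset.mem_univ k₀)
    simp only [(hy k₀).2] at h2
    linarith
  have h2 := Real.log_le_log (by positivity) h1
  refine le_trans ?_ h2
  rw [Real.log_mul (by positivity) (Real.exp_pos _).ne', Real.log_exp, Real.log_pow]
  have h3 : Real.log c₀ + o * Real.log ‖u k₀ 0‖ ≤ Real.log ‖Dj (φ k₀ (u k₀))‖ := by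
    have h4 := Real.log_le_log hD2 hD1
    rwa [Real.log_mul hc₀.ne' (zpow_pos hu0 _).ne', Real.log_zpow] at h4
  have h4 : ∑ e, ρ e / Q e * ((2 * τ k₀ e + 2 * ((m e * Q e * 1 : ℕ) : ℝ) *
      (J k₀ + 1 - 2 * s k₀)) * Real.log (1 / ‖u k₀ 0‖) - C e) ≤
      Lt T v G i₀ ρ ψ idx (γ k₀ (u k₀)) := by
    unfold Lt
    refine Finset.sum_le_sum fun e _ => mul_le_mul_of_nonneg_left ?_
      (div_nonneg (hρ e).le (Nat.cast_nonneg _))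
    exact (hu k₀).2.2.1.2 e rfl (hu k₀).2.1 (hφO k₀)
  have h5 : ∑ e, ρ e / Q e * ((2 * τ k₀ e + 2 * ((m e * Q e * 1 : ℕ) : ℝ) *
      (J k₀ + 1 - 2 * s k₀)) * Real.log (1 / ‖u k₀ 0‖) - C e) =
      (2 * ((∑ e, ρ e * (τ k₀ e / Q e)) + J k₀ + 1 - 2 * s k₀)) * Real.log (1 / ‖u k₀ 0‖) -
        ∑ e, ρ e / Q e * C e := by
    have h6 : ∀ e, ρ e / Q e * ((2 * τ k₀ e + 2 * ((m e * Q e * 1 : ℕ) : ℝ) *
      (J k₀ + 1 - 2 * s k₀)) * Real.log (1 / ‖u k₀ 0‖) - C e) =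
        (2 * (ρ e * (τ k₀ e / Q e)) + 2 * (ρ e * m e) * (J k₀ + 1 - 2 * s k₀)) *
          Real.log (1 / ‖u k₀ 0‖) - ρ e / Q e * C e := by
      intro e
      have := hQ0 e
      push_cast
      field_simp
    rw [Finset.sum_congr rfl fun e _ => h6 e, Finset.sum_sub_distrib, ← Finset.sum_mul,
      Finset.sum_add_distrib, ← Finset.mul_sum, ← Finset.sum_mul, ← Finset.mul_sum, hρm]
    ring
  have hsk : (s k₀ : ℝ) ≠ 0 := by exact_mod_cast (Nat.one_le_iff_ne_zero.1 (hs k₀).1)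
  have h7 : Real.log (1 / ‖u k₀ 0‖) = Real.log (1 / ‖w 0‖) / s k₀ := by
    have h8 : ‖w 0‖ = ‖u k₀ 0‖ ^ s k₀ := by rw [← norm_pow, (hu k₀).1]
    rw [one_div, one_div, Real.log_inv, Real.log_inv, h8, Real.log_pow]
    field_simp
  have h8 : Real.log ‖u k₀ 0‖ = - (Real.log (1 / ‖w 0‖) / s k₀) := by
    rw [← h7, one_div, Real.log_inv, neg_neg]
  rw [h5, h7] at h4
  rw [h8] at h3
  push_cast
  have h9 : (2 * ((∑ e, ρ e * (τ k₀ e / Q e)) + J k₀ + 1 - 2 * s k₀ - o) / s k₀) *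
        Real.log (1 / ‖w 0‖) - ((∑ e, ρ e / Q e * C e) - 2 * Real.log c₀) =
      2 * (Real.log c₀ + o * - (Real.log (1 / ‖w 0‖) / s k₀)) +
      ((2 * ((∑ e, ρ e * (τ k₀ e / Q e)) + J k₀ + 1 - 2 * s k₀)) *
        (Real.log (1 / ‖w 0‖) / s k₀) - ∑ e, ρ e / Q e * C e) := by
    ring
  rw [h9]
  linarith

/-- the inequality for one dual function -/
theorem contraN (hχ : IsKahler χ) (hM : ∀ e, IsLB 4 (M e)) (hNef : ∀ e, Nef χ (M e))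
    (hv : IsOpenEmb X O v) (hO : DimLe X 2 (v '' O)ᶜ)
    (hc : IsCov X V G c r d lam θ) (hζ : IsCoord X V ζ)
    (hb : ∀ z ∈ ball c r, ContinuousAt b z ∧ b z ≠ 0)
    (hgenl : ∀ l : Fin d, Gen V G c r a b (fun x => lam x ^ (l : ℕ)))
    (hgen : ∀ l : Fin d, ∀ f : Fin (l : ℕ) → Fin n, Gen V G c r a b (fun x => ∏ t, ζ (f t) x))
    (hκa : ∀ z ∈ ball c r, AnalyticAt ℂ κ z)
    (hκ : ∀ z ∈ ball c r, θ z ≠ 0 → ∀ x : Fin d → X.pt, Enum V G z x →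
      κ z = (Matrix.of fun i k => a i (x k)).det ^ 2)
    (hL : ∀ e, IsLBx X (L e)) (hm : ∀ e, 1 ≤ m e) (hQ : ∀ e, 1 ≤ Q e)
    (hT : ∀ e, IsIsoY O v (L e) ((((Bd.can 4 Y).pow (m e)).mul (M e)).pow (Q e)) (T e))
    (hVL : ∀ e, V ⊆ (L e).U (i₀ e)) (hρ : ∀ e, 0 < ρ e) (hρm : ∑ e, ρ e * m e = 1)
    (h0 : w₁ 0 = 0) (hw₁ : bl w₁ ∈ ball c r)
    (hθ : ∀ᶠ w in 𝓝 w₁, w 0 ≠ 0 → θ (bl w) ≠ 0) (hN : 1 ≤ N)
    (hs : ∀ k, 1 ≤ s k ∧ s k ∣ N)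
    (hφ : ∀ k, ∀ᶠ w in 𝓝 w₁, ContinuousAt (φ k) w ∧ φ k w ∈ V ∧ G (φ k w) = pw (s k) w)
    (hE : ∀ᶠ w in 𝓝 w₁, w 0 ≠ 0 → Enum V G ![w 0 ^ N, w 1 * w 0 ^ N, w 2, w 3]
      (fun k => φ k ![w 0 ^ (N / s k), w 1, w 2, w 3]))
    (hl : ∀ k, VL0 O v L M m Q T (φ k) w₁ i₀ (γ k) (ch k) (μ k) (τ k) (J k)) (k₀ : Fin d)
    {Nm : Fin d → X.pt → ℂ} (hNma : ∀ j, ∀ x ∈ V, X.Hol (Nm j) x)
    (hNm : ∀ z ∈ ball c r, θ z ≠ 0 → ∀ x : Fin d → X.pt, Enum V G z x →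
      ∀ k j, Nm j (x k) = (am a x).det * (am a x).adjugate k j) (j : Fin d)
    {o : ℤ} {c₀ : ℝ} (hc₀ : 0 < c₀)
    (ho : ∀ᶠ w in 𝓝 w₁, w 0 ≠ 0 → c₀ * ‖w 0‖ ^ o ≤ ‖Nm j (φ k₀ w) / κ (G (φ k₀ w))‖) :
    (∑ e, ρ e * (τ k₀ e / Q e)) + J k₀ + 1 - 2 * s k₀ - o ≤ 0 := by
  by_contra hpos
  push Not at hpos
  have hs0 : (0 : ℝ) < s k₀ := by exact_mod_cast (hs k₀).1
  have hpos' : 0 < 2 * ((∑ e, ρ e * (τ k₀ e / Q e)) + J k₀ + 1 - 2 * s k₀ - o) / s k₀ := by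
    positivity
  have hthin := stThin Y X O v hv hO V G c r d lam θ hc
  set E : Set (Cm 4) := G '' {x | x ∈ V ∧ ¬ ∃ y ∈ O, v y = x ∧ RankGe3 v G y} with hEdef
  obtain ⟨p1, p2, p3⟩ := H19.stPush Y χ hχ X O v hv V G c r d lam θ hc (G '' (V \ v '' O)) rfl
  have hsub : G '' (V \ v '' O) ⊆ E := by
    rintro _ ⟨x, ⟨hx, hx'⟩, rfl⟩
    refine ⟨x, ⟨hx, ?_⟩, rfl⟩
    rintro ⟨y, hy, hyx, -⟩
    exact hx' ⟨y, hy, hyx⟩
  have hsub' : ball c r \ E ⊆ ball c r \ G '' (V \ v '' O) := fun z hz =>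
    ⟨hz.1, fun h => hz.2 (hsub h)⟩
  have hOE : ∀ z, z ∉ E → ∀ x ∈ V, G x = z → x ∈ v '' O := by
    intro z hz x hx hxz
    by_contra hcon
    refine hz ⟨x, ⟨hx, ?_⟩, hxz⟩
    rintro ⟨y, hy, hyx, -⟩
    exact hcon ⟨y, hy, hyx⟩
  obtain ⟨e₁⟩ : Nonempty (Fin k) := by
    by_contra hcon
    have : IsEmpty (Fin k) := not_nonempty_iff.1 hcon
    simp at hρm
  have hnl : ∀ k, NLift O v (L e₁) (M e₁) (m e₁) (Q e₁) (T e₁) (i₀ e₁) 0 (φ k) w₁ (γ k) (ch k)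
      (μ k e₁) (fun _ => 1) := fun k =>
    ⟨(hl k).cont, (hl k).at', (hl k).mem e₁, (hl k).an, (hl k).lift,
      analyticAt_const, Eventually.of_forall fun w _ => by simp⟩
  have hρ0 : 0 < ∑ e, ρ e := Finset.sum_pos (fun e _ => hρ e) ⟨e₁, Finset.mem_univ _⟩
  refine TD.stCoreX c r hc.pos θ hc.an hc.ne E hthin (pushH χ O v V G)
    (fun z hz hθz => p1 z (hsub' hz) hθz) (fun z hz => p2 z (hsub' hz))
    (fun a ha hac has i j k => p3 a ha hac (has.trans hsub') i j k) w₁ h0 hw₁ ?_ hθ _ hpos' ?_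
  · obtain ⟨C, hC⟩ := pushH_le hχ hv hc.holo h0 hN hs hφ hE hnl
    refine ⟨C, ?_⟩
    filter_upwards [hC] with w h1 hw hwE _
    exact h1 hw (hOE _ hwE)
  · intro δ hδ
    have hδ' : 0 < δ / ∑ e, ρ e := div_pos hδ hρ0
    choose ψ hψ hcurv using fun e => hNef e (δ / ∑ e, ρ e) hδ'
    choose idx hidx using fun e => (hM e).cover
    refine ⟨Ph O v V G (fun x => Nm j x / κ (G x)) (Lt T v G i₀ ρ ψ idx), ?_, ?_, ?_⟩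
    · intro z hz hθz
      obtain ⟨D, ρb, hzD, hDs, hbr⟩ := exists_br hv hc hz.1 hθz (hOE z hz.2)
      refine Ph_psh hχ hv hc.holo hbr hzD hδ.le ?_ ?_
      · intro k'
        have h1 := (br_an hv hbr hzD (hNma j) k').div (hκa z hz.1)
          (kappa_ne_zero hc hgenl hκ hz.1 hθz (hb _ hz.1).2)
        refine h1.congr ?_
        filter_upwards [hbr.isOpen.mem_nhds hzD] with w hw
        show _ = Nm j (v (ρb k' w)) / κ (G (v (ρb k' w)))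
        rw [(hbr.mem w hw k').2.2]
        rfl
      · intro k'
        have h1 := Lt_psh (T := T) (i₀ := i₀) hχ hM hv hc.holo hL hQ hT hVL hρ hbr hψ hcurv hidx
          hzD k'
        rwa [mul_div_cancel₀ _ hρ0.ne'] at h1
    · exact locBdN hM hv hc hL hm hQ hT hVL hρ hρm hζ hb hgen hgenl hκ hψ hidx hNm j
    · obtain ⟨C, hC⟩ := Ph_ge (Dj := fun x => Nm j x / κ (G x)) hM hv hc hL hm hQ hT hVL hρ hρm
        h0 hN hs hφ hE hl k₀ hc₀ ho hψ hidx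
      refine ⟨C, ?_⟩
      filter_upwards [hC] with w h1 hw hwE
      exact h1 hw (hOE _ hwE)

end

end Vale.Agent.P277.H884.S
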