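import Vale.Agent.P277.H371.PuiS

/-!
# P277: parametrisation of the sheets with the monodromy permutation
-/

open scoped Manifold ContDiff Topology
open Vale.Agent.P272.K Vale.Agent.P285.H281.FD Set Filter
open Vale.Agent.P298.H983 Vale.Agent.P277.H884 Vale.Agent.P277.TX

noncomputable section

namespace Vale.Agent.P277.H884.S

open Vale.Agent.P277.H371

/-- the primitive root of unity -/
def rt (s : ℕ) : ℂ := Complex.exp (2 * Real.pi * Complex.I / s)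

theorem rt_pow {s : ℕ} (hs : 1 ≤ s) : rt s ^ s = 1 := by
  rw [rt, ← Complex.exp_nat_mul]
  have h1 : (s : ℂ) * (2 * Real.pi * Complex.I / s) = 2 * Real.pi * Complex.I := by
    have : (s : ℂ) ≠ 0 := by exact_mod_cast (Nat.one_le_iff_ne_zero.1 hs)
    field_simp
  rw [h1, Complex.exp_two_pi_mul_I]

theorem rt_prim {s : ℕ} (hs : 1 ≤ s) : IsPrimitiveRoot (rt s) s :=
  Complex.isPrimitiveRoot_exp s (by omega)

theorem norm_rt (s : ℕ) : ‖rt s‖ = 1 := by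
  have h1 : (2 * Real.pi * Complex.I / s : ℂ) = ((2 * Real.pi / s : ℝ) : ℂ) * Complex.I := by
    push_cast
    ring
  rw [rt, h1, Complex.norm_exp_ofReal_mul_I]

theorem omg_pow {N s : ℕ} (hN : N ≠ 0) (hs : 1 ≤ s) (h : s ∣ N) : omg N ^ (N / s) = rt s := by
  rw [omg, rt, ← Complex.exp_nat_mul]
  congr 1
  obtain ⟨q, rfl⟩ := h
  have hs0 : (s : ℂ) ≠ 0 := by exact_mod_cast (Nat.one_le_iff_ne_zero.1 hs)
  have hq0 : (q : ℂ) ≠ 0 := by
    rintro h
    refine hN ?_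
    rw [show q = 0 by exact_mod_cast h, mul_zero]
  rw [Nat.mul_div_cancel_left q (by omega)]
  push_cast
  field_simp

/-- `StPui` with the monodromy permutation `σ`. -/
theorem stPuiT (X : CSp) (V : Set X.pt) (G : X.pt → Cm 4) (c : Cm 4)
    (r : ℝ) (d : ℕ) (lam : X.pt → ℂ) (θ : Cm 4 → ℂ) (h : IsCov X V G c r d lam θ)
    (w₀ : Cm 4) (h0 : w₀ 0 = 0) (hbl : bl w₀ ∈ Metric.ball c r) (m : ℕ) (Φ : Cm 4 → ℂ)
    (hΦ : AnalyticAt ℂ Φ w₀) (hΦ0 : Φ w₀ ≠ 0) (hθ : ∀ᶠ w in 𝓝 w₀, θ (bl w) = w 0 ^ m * Φ w) :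
    ∃ (N : ℕ) (s : Fin d → ℕ) (ε : ℝ) (φ : Fin d → Cm 4 → X.pt) (σ : Equiv.Perm (Fin d)),
      1 ≤ N ∧ 0 < ε ∧ ε ≤ 1 ∧
      (∀ k, 1 ≤ s k ∧ s k ≤ d ∧ s k ∣ N) ∧
      (∀ k, ∀ w ∈ Metric.ball w₀ ε, HolAt X (φ k) w ∧ φ k w ∈ V ∧
        G (φ k w) = ![w 0 ^ s k, w 1 * w 0 ^ s k, w 2, w 3]) ∧
      (∀ w ∈ Metric.ball w₀ ε, w 0 ≠ 0 →
        Enum V G ![w 0 ^ N, w 1 * w 0 ^ N, w 2, w 3]
          (fun k => φ k ![w 0 ^ (N / s k), w 1, w 2, w 3])) ∧
      (∀ k, s k = Function.minimalPeriod σ k) ∧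
      ∀ k, ∀ w ∈ Metric.ball w₀ ε, w 0 ≠ 0 →
        φ (σ k) w = φ k ![rt (s k) * w 0, w 1, w 2, w 3] := by
  obtain ⟨P, hP1, hP2, hP3⟩ := h.sym lam h.lamHol
  have hopenB : IsOpen (Metric.ball c r) := Metric.isOpen_ball
  have hblc : Continuous bl := differentiable_bl.continuous
  obtain ⟨A₁, hA₁, hAb⟩ := Metric.eventually_nhds_iff_ball.1 (hθ.and
    ((hblc.continuousAt.eventually (hopenB.mem_nhds hbl)).and (hΦ.continuousAt.eventually_ne hΦ0)))
  set A : ℝ := min A₁ 1 with hAdef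
  have hA : 0 < A := lt_min hA₁ one_pos
  have hA1 : A ≤ 1 := min_le_right _ _
  have hAball : ∀ w ∈ Metric.ball w₀ A, θ (bl w) = w 0 ^ m * Φ w ∧ bl w ∈ Metric.ball c r ∧
      Φ w ≠ 0 := fun w hw => hAb w (Metric.ball_subset_ball (min_le_left _ _) hw)
  set Ω₁ : Set (Cm 3) := Metric.ball (Fin.tail w₀ : Cm 3) A with hΩ₁
  -- the family of polynomials
  have hcons : Differentiable ℂ fun q : Cm 3 × ℂ => (Fin.cons q.2 q.1 : Cm 4) := by
    refine differentiable_pi.2 fun i => ?_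
    refine Fin.cases ?_ (fun j => ?_) i
    · simp
    · simp only [Fin.cons_succ]; fun_prop
  have hβ : Differentiable ℂ fun q : Cm 3 × ℂ => bl (Fin.cons q.2 q.1) :=
    differentiable_bl.comp hcons
  have hmem : ∀ q ∈ Ω₁ ×ˢ Metric.ball (0 : ℂ) A, (Fin.cons q.2 q.1 : Cm 4) ∈ Metric.ball w₀ A :=
    fun q hq => cons_mem_ball h0 hA (by simpa using hq.2) hq.1
  have hmaps : MapsTo (fun q : Cm 3 × ℂ => bl (Fin.cons q.2 q.1)) (Ω₁ ×ˢ Metric.ball (0 : ℂ) A)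
      (Metric.ball c r) := fun q hq => (hAball _ (hmem q hq)).2.1
  have hPF : PFam (Ω₁ ×ˢ Metric.ball (0 : ℂ) A) d fun q => P (bl (Fin.cons q.2 q.1)) := by
    refine ⟨fun q hq => (hP1 _ (hmaps hq)).1, fun q hq => (hP1 _ (hmaps hq)).2.1, fun i => ?_⟩
    have h1 : DifferentiableOn ℂ (fun z => (P z).coeff i) (Metric.ball c r) := fun z hz =>
      ((hP1 z hz).2.2 i).differentiableAt.differentiableWithinAt
    exact h1.comp hβ.differentiableOn hmaps
  have hθne : ∀ w ∈ Metric.ball w₀ A, w 0 ≠ 0 → θ (bl w) ≠ 0 := by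
    intro w hw hw0
    rw [(hAball w hw).1]
    exact mul_ne_zero (pow_ne_zero _ hw0) (hAball w hw).2.2
  have hsimple : Simple ((Ω₁ ×ˢ Metric.ball (0 : ℂ) A) ∩ {q | q.2 ≠ 0})
      fun q => P (bl (Fin.cons q.2 q.1)) := by
    rintro q ⟨hq, hq0⟩ z hz
    have hθq : θ (bl (Fin.cons q.2 q.1)) ≠ 0 := hθne _ (hmem q hq) (by simpa using hq0)
    obtain ⟨x, hx⟩ := h.enum _ (hmaps hq) hθq
    have h1 := hP3 _ (hmaps hq) hθq x hx
    have h2 : Function.Injective fun k => lam (x k) := by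
      intro k l hkl
      exact hx.1 (h.sep _ (hmaps hq) hθq ((hx.2 _).1 ⟨k, rfl⟩) ((hx.2 _).1 ⟨l, rfl⟩) hkl)
    have h3 : (P (bl (Fin.cons q.2 q.1))).Separable := by
      rw [h1]
      exact Polynomial.separable_prod_X_sub_C_iff.2 h2
    intro h4
    have h5 := h3.aeval_derivative_ne_zero (x := z) (by simpa [Polynomial.aeval_def] using hz)
    exact h5 (by simpa [Polynomial.aeval_def] using h4)
  obtain ⟨N, s, η, hN0, hs, hη1, hη2, hη3, σ, hσs, hσr⟩ :=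
    roots_puiseux_sharp (Metric.isOpen_ball (x := (Fin.tail w₀ : Cm 3)) (ε := A))
      (convex_ball _ _) hA hPF hsimple
  have hN : 1 ≤ N := Nat.one_le_iff_ne_zero.2 hN0
  -- powers stay in the ball
  have hpowlt : ∀ {t : ℂ} {j : ℕ}, 1 ≤ j → ‖t‖ < A → ‖t ^ j‖ < A := by
    intro t j hj ht
    rw [norm_pow]
    refine lt_of_le_of_lt ?_ ht
    exact pow_le_of_le_one (norm_nonneg t) (ht.le.trans hA1) (by omega)
  have hvec : ∀ (w : Cm 4) (j : ℕ), (![w 0 ^ j, w 1, w 2, w 3] : Cm 4) =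
      Fin.cons (w 0 ^ j) (Fin.tail w) := by
    intro w j
    ext i
    fin_cases i <;> rfl
  have hvecmem : ∀ w ∈ Metric.ball w₀ A, ∀ j : ℕ, 1 ≤ j →
      (![w 0 ^ j, w 1, w 2, w 3] : Cm 4) ∈ Metric.ball w₀ A := by
    intro w hw j hj
    rw [hvec]
    exact cons_mem_ball h0 hA (hpowlt hj (zero_lt_of_mem h0 hA hw)) (tail_mem_ball hA hw)
  have hblvec : ∀ (w : Cm 4) (j : ℕ), bl ![w 0 ^ j, w 1, w 2, w 3] =
      ![w 0 ^ j, w 1 * w 0 ^ j, w 2, w 3] := by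
    intro w j
    ext i
    fin_cases i <;> simp [bl, mul_comm]
  have hbdiff : ∀ j : ℕ, Differentiable ℂ fun w : Cm 4 =>
      (![w 0 ^ j, w 1 * w 0 ^ j, w 2, w 3] : Cm 4) := by
    intro j
    refine differentiable_pi.2 fun i => ?_
    fin_cases i <;> simp <;> fun_prop
  have hban : ∀ (j : ℕ) (w : Cm 4), AnalyticAt ℂ (fun w : Cm 4 =>
      (![w 0 ^ j, w 1 * w 0 ^ j, w 2, w 3] : Cm 4)) w := fun j w =>
    P268.analyticAt_of_differentiableOn isOpen_univ (hbdiff j).differentiableOn (mem_univ w)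
  set S : Set (Cm 4) := {w | w ∈ Metric.ball w₀ A ∧ w 0 ≠ 0} with hS
  have hSo : IsOpen S := Metric.isOpen_ball.inter
    (isOpen_ne_fun (continuous_apply 0) continuous_const)
  have hlift : ∀ k, ∃ φ : Cm 4 → X.pt, (∀ w ∈ Metric.ball w₀ A, HolAt X φ w ∧ φ w ∈ V ∧
      G (φ w) = ![w 0 ^ s k, w 1 * w 0 ^ s k, w 2, w 3]) ∧
      ∀ w ∈ Metric.ball w₀ A, w 0 ≠ 0 → lam (φ w) = η k (Fin.tail w, w 0) := by
    intro k
    have hbr : ∀ w ∈ Metric.ball w₀ A,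
        (![w 0 ^ s k, w 1 * w 0 ^ s k, w 2, w 3] : Cm 4) ∈ Metric.ball c r := by
      intro w hw
      rw [← hblvec]
      exact (hAball _ (hvecmem w hw _ (hs k).1)).2.1
    have hηm : MapsTo (fun w : Cm 4 => ((Fin.tail w, w 0) : Cm 3 × ℂ)) (Metric.ball w₀ A)
        (Ω₁ ×ˢ powBall (s k) A) := by
      intro w hw
      refine ⟨tail_mem_ball hA hw, ?_⟩
      change ‖w 0‖ ^ s k < A
      rw [← norm_pow]
      exact hpowlt (hs k).1 (zero_lt_of_mem h0 hA hw)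
    have hηc : ContinuousOn (fun w : Cm 4 => η k (Fin.tail w, w 0)) S := by
      have h1 : Continuous fun w : Cm 4 => ((Fin.tail w, w 0) : Cm 3 × ℂ) := by
        refine Continuous.prodMk ?_ (continuous_apply 0)
        exact continuous_pi fun i => continuous_apply _
      exact ((hη1 k).continuousOn.comp h1.continuousOn hηm).mono fun w hw => hw.1
    obtain ⟨ψ, hψ⟩ := h.lift hP3 hSo (b := fun w => ![w 0 ^ s k, w 1 * w 0 ^ s k, w 2, w 3])
      (fun w _ => hban _ w) (fun w hw => hbr w hw.1) (fun w hw => by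
        rw [← hblvec]
        exact hθne _ (hvecmem w hw.1 _ (hs k).1) (by simpa using pow_ne_zero _ hw.2)) hηc
      (fun w hw => by
        have h1 := hη2 k (Fin.tail w, w 0) (hηm hw.1)
        simp only at h1
        rw [← hvec, hblvec] at h1
        exact h1)
    obtain ⟨Ψ, hΨ, hΨψ⟩ := h.extend (Metric.isOpen_ball (x := w₀) (ε := A))
      (b := fun w => ![w 0 ^ s k, w 1 * w 0 ^ s k, w 2, w 3])
      (fun w _ => (hban _ w).continuousAt) hbr (ψ := ψ)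
      (fun w hw hw0 => ⟨(hψ w ⟨hw, hw0⟩).1, (hψ w ⟨hw, hw0⟩).2.1, (hψ w ⟨hw, hw0⟩).2.2.1⟩)
    exact ⟨Ψ, hΨ, fun w hw hw0 => by rw [hΨψ w hw hw0]; exact (hψ w ⟨hw, hw0⟩).2.2.2⟩
  choose φ hφ hφl using hlift
  refine ⟨N, s, A, φ, σ, hN, hA, hA1, hs, hφ, fun w hw hw0 => ?_, hσs, ?_⟩
  swap
  · have hss : ∀ i, s (σ i) = s i := by
      intro i
      rw [hσs, hσs]
      exact Function.minimalPeriod_apply (σ.injective.mem_periodicPts i)
    have hvecη : ∀ (w : Cm 4) (u : ℂ), (![u * w 0, w 1, w 2, w 3] : Cm 4) =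
        Fin.cons (u * w 0) (Fin.tail w) := by
      intro w u
      ext i
      fin_cases i <;> rfl
    have hmemη : ∀ w ∈ Metric.ball w₀ A, ∀ u : ℂ, ‖u‖ = 1 →
        (![u * w 0, w 1, w 2, w 3] : Cm 4) ∈ Metric.ball w₀ A := by
      intro w hw u hu
      rw [hvecη]
      refine cons_mem_ball h0 hA ?_ (tail_mem_ball hA hw)
      rw [norm_mul, hu, one_mul]
      exact zero_lt_of_mem h0 hA hw
    intro i w hw hw0
    have hrt0 : rt (s i) ≠ 0 := by
      rw [← norm_ne_zero_iff, norm_rt]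
      exact one_ne_zero
    have hNd : 1 ≤ N / s i := (Nat.one_le_div_iff (hs i).1).2 (Nat.le_of_dvd hN (hs i).2.2)
    obtain ⟨a, ha⟩ := IsAlgClosed.exists_pow_nat_eq (w 0) (show 0 < N / s i by omega)
    have ha0 : a ≠ 0 := by
      rintro rfl
      rw [zero_pow (by omega)] at ha
      exact hw0 ha.symm
    have haN : a ^ N = w 0 ^ s i := by
      rw [← ha, ← pow_mul, Nat.div_mul_cancel (hs i).2.2]
    have hamem : a ∈ powBall N A := by
      change ‖a‖ ^ N < A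
      rw [← norm_pow, haN]
      exact hpowlt (hs i).1 (zero_lt_of_mem h0 hA hw)
    have h1 := hσr i (Fin.tail w) (tail_mem_ball hA hw) a hamem ha0
    rw [hss, mul_pow, ha, omg_pow hN0 (hs i).1 (hs i).2.2] at h1
    have hw' := hmemη w hw (rt (s i)) (norm_rt _)
    have hw'0 : (![rt (s i) * w 0, w 1, w 2, w 3] : Cm 4) 0 ≠ 0 := by
      change rt (s i) * w 0 ≠ 0
      exact mul_ne_zero hrt0 hw0
    have h2 := hφl (σ i) w hw hw0
    have h3 := hφl i _ hw' hw'0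
    rw [hvecη, Fin.tail_cons, Fin.cons_zero] at h3
    obtain ⟨-, g2, g3⟩ := hφ (σ i) w hw
    obtain ⟨-, g5, g6⟩ := hφ i _ hw'
    have hz : (![w 0 ^ s i, w 1 * w 0 ^ s i, w 2, w 3] : Cm 4) ∈ Metric.ball c r := by
      rw [← hblvec]
      exact (hAball _ (hvecmem w hw _ (hs i).1)).2.1
    have hzθ : θ ![w 0 ^ s i, w 1 * w 0 ^ s i, w 2, w 3] ≠ 0 := by
      rw [← hblvec]
      exact hθne _ (hvecmem w hw _ (hs i).1) (by simpa using pow_ne_zero _ hw0)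
    refine h.sep _ hz hzθ ⟨g2, ?_⟩ ⟨g5, ?_⟩ ?_
    · rw [g3, hss]
    · rw [g6]
      have h4 : (rt (s i) * w 0) ^ s i = w 0 ^ s i := by
        rw [mul_pow, rt_pow (hs i).1, one_mul]
      ext j
      fin_cases j
      · exact h4
      · change w 1 * (rt (s i) * w 0) ^ s i = w 1 * w 0 ^ s i
        rw [h4]
      · rfl
      · rfl
    · rw [h2, h1, hvecη, h3]
  set z : Cm 4 := ![w 0 ^ N, w 1 * w 0 ^ N, w 2, w 3] with hz
  have hNs : ∀ k, 1 ≤ N / s k := fun k =>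
    (Nat.one_le_div_iff (hs k).1).2 (Nat.le_of_dvd hN (hs k).2.2)
  set y : Fin d → X.pt := fun k => φ k ![w 0 ^ (N / s k), w 1, w 2, w 3] with hy
  have hzmem : z ∈ Metric.ball c r := by
    rw [hz, ← hblvec]
    exact (hAball _ (hvecmem w hw _ hN)).2.1
  have hzθ : θ z ≠ 0 := by
    rw [hz, ← hblvec]
    exact hθne _ (hvecmem w hw _ hN) (by simpa using pow_ne_zero _ hw0)
  have hyV : ∀ k, y k ∈ V ∧ G (y k) = z := by
    intro k
    have h1 := hφ k _ (hvecmem w hw _ (hNs k))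
    refine ⟨h1.2.1, ?_⟩
    rw [hy]
    simp only
    rw [h1.2.2, hz]
    have h2 : (w 0 ^ (N / s k)) ^ s k = w 0 ^ N := by
      rw [← pow_mul, Nat.div_mul_cancel (hs k).2.2]
    ext i
    fin_cases i <;> simp [h2]
  have hyl : ∀ k, lam (y k) = η k (Fin.tail w, w 0 ^ (N / s k)) := by
    intro k
    have h0' : (![w 0 ^ (N / s k), w 1, w 2, w 3] : Cm 4) 0 ≠ 0 := pow_ne_zero (N / s k) hw0
    have h1 := hφl k _ (hvecmem w hw _ (hNs k)) h0'
    rw [hy]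
    simp only
    rw [h1, hvec, Fin.tail_cons, Fin.cons_zero]
  have hyinj : Function.Injective y := by
    intro k l hkl
    have h1 : lam (y k) = lam (y l) := by rw [hkl]
    rw [hyl, hyl] at h1
    refine hη3 (Fin.tail w) (tail_mem_ball hA hw) (w 0) ?_ hw0 h1
    change ‖w 0‖ ^ N < A
    rw [← norm_pow]
    exact hpowlt hN (zero_lt_of_mem h0 hA hw)
  obtain ⟨x, hx⟩ := h.enum z hzmem hzθ
  refine ⟨hyinj, fun p => ⟨?_, fun hp => ?_⟩⟩
  · rintro ⟨k, rfl⟩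
    exact hyV k
  · -- counting
    have h1 : ∀ k, ∃ l, x l = y k := fun k => (hx.2 (y k)).2 (hyV k)
    choose f hf using h1
    have hfinj : Function.Injective f := by
      intro k l hkl
      exact hyinj (by rw [← hf k, ← hf l, hkl])
    have hfsurj := Finite.surjective_of_injective hfinj
    obtain ⟨l, hl⟩ := (hx.2 p).2 hp
    obtain ⟨k, rfl⟩ := hfsurj l
    exact ⟨k, by rw [← hf k, hl]⟩

end Vale.Agent.P277.H884.S
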