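import Vale.Agent.P277.H335.C.Alt
import Vale.Agent.P277.H335.K.RegG
import Vale.Agent.P277.H762.S.WsDef

/-!
# P277, (WS): the wedges of a good covering, centred in a flipped surface along which the space is
singular
-/

open scoped Manifold ContDiff ComplexOrder Topology
open Vale.Agent.P272.K Vale.Agent.P285.H281.FD Vale.Agent.P267.H175 Set Metric Filter

noncomputable section

namespace Vale.Agent.P277.H884.SW

open Vale.Agent.P277 Vale.Agent.P277.T2 Vale.Agent.P277.H335 Vale.Agent.P277.H615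
open Vale.Agent.P277.H335.RR Vale.Agent.P277.H335.KK Vale.Agent.P277.H335.CC
open Vale.Agent.P277.H335.RC Vale.Agent.P277.H371 Vale.Agent.P277.TX
open Vale.Agent.P277.H762.S (PlW StgW)
open Vale.Agent.P277.H884.S (Stp VL0 VL0.of_vl rt rt_pow norm_rt)

variable {Y : Type} [TopologicalSpace Y] [ChartedSpace (Cm 4) Y]

/-- `OrdG` at the nearby points -/
theorem ordG_near [IsManifold 𝓘(ℂ, Cm 4) ω Y] {r : ℕ} {G : Fin r → Set Y} {a : Fin r → ℝ}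
    {γ : Cm 4 → Y} {w₁ : Cm 4} {b : ℝ} (h : OrdG G a γ w₁ b) (hγ : ContinuousAt γ w₁)
    (h0 : w₁ 0 = 0) : ∀ᶠ w in 𝓝 w₁, w 0 = 0 → OrdG G a γ w b := by
  obtain ⟨ζ, μ, A, h1, h2, h3, h4, h5⟩ := h
  have c1 : ∀ᶠ w in 𝓝 w₁, ∀ l, IsLEq (G l) (γ w) (ζ l) := by
    rw [eventually_all]
    exact fun l => hγ.eventually (MM.isLEq_eventually (h1 l))
  have c2 : ∀ᶠ w in 𝓝 w₁, ∀ l, AnalyticAt ℂ (A l) w := by
    rw [eventually_all]
    exact fun l => (h2 l).eventually_analyticAt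
  have c3 : ∀ᶠ w in 𝓝 w₁, ∀ l, w 0 = 0 → ∃ᶠ w' in 𝓝 w, w' 0 = 0 ∧ A l w' ≠ 0 := by
    rw [eventually_all]
    exact fun l => freq_eventually h0 (h2 l) (h3 l)
  have c4 : ∀ᶠ w in 𝓝 w₁, ∀ l, ∀ᶠ w' in 𝓝 w, ζ l (γ w') = w' 0 ^ μ l * A l w' := by
    rw [eventually_all]
    exact fun l => (h4 l).eventually_nhds
  filter_upwards [c1, c2, c3, c4] with w k1 k2 k3 k4 hw
  exact ⟨ζ, μ, A, k1, k2, fun l => k3 l hw, k4, h5⟩

section
variable [IsManifold 𝓘(ℂ, Cm 4) ω Y] {X : CSp} {k s : ℕ} {M : Fin (k + s) → Bd Y}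
  {m : Fin (k + s) → ℕ} {L : Fin (k + s) → Bd X.pt} {O : Set Y} {v : Y → X.pt}
  {Q : Fin (k + s) → ℕ} {T : ∀ e, (L e).ι → (((Bd.can 4 Y).pow (m e)).mul (M e)).ι → Y → ℂ}
  {ρ : Fin (k + s) → ℝ} {S : Set X.pt} {H : Fin s → Type} [∀ i, TopologicalSpace (H i)]
  [∀ i, ChartedSpace (Cm 3) (H i)] {ι : ∀ i, H i → Y}
  {sg : ∀ i : Fin s, (M (Fin.natAdd k i)).ι → Y → ℂ} {r : ℕ} {G : Fin r → Set Y}
  {a : Fin r → ℝ} {φ : Cm 4 → X.pt} {w₁ : Cm 4}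

theorem plW_near (hM : ∀ e, IsLB 4 (M e))
    (hbd : ∀ i, T3.IsBd (ι i) (M (Fin.natAdd k i)) (sg i)) (h : PlW O v T Q ρ S G a ι φ w₁) :
    ∀ᶠ w in 𝓝 w₁, w 0 = 0 → PlW O v T Q ρ S G a ι φ w := by
  obtain ⟨l, W₁, γ, ch, μ, i, x, r₁, b, hg, ha, hp, hx, hn, ho, hv⟩ := h
  obtain ⟨g1, g2, g3⟩ := hg.lift w₁ hg.mem
  have hn' : ∀ᶠ w in 𝓝 w₁, ∀ j, γ w ∉ range (ι j) := by
    rw [eventually_all]
    intro j
    have h1 := hg.memN w₁ hg.mem (Fin.natAdd k j)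
    have h2 : sg j (μ (Fin.natAdd k j)) (γ w₁) ≠ 0 := fun h => hn j (((hbd j).zero _ _ h1).1 h)
    have h3 : ContinuousAt (fun w => sg j (μ (Fin.natAdd k j)) (γ w)) w₁ :=
      (analyticAt_comp_chart g1 g2 g3
        ((hbd j).sec.holo _ ch _ g2 h1).analyticAt).continuousAt
    filter_upwards [h3.eventually_ne h2, g1.eventually_mem (((hM _).isOpen _).mem_nhds h1)]
      with w k1 k2 k3
    exact k1 (((hbd j).zero _ _ k2).2 k3)
  filter_upwards [MM.germV_move hg, hg.isOpen.mem_nhds hg.mem, ball_mem_nhds w₁ hp.pos, hn',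
    ordG_near ho g1 hg.zero] with w h1 h2 h3 h4 h5 h0
  obtain ⟨r₂, hr₂, hs⟩ := Metric.isOpen_iff.1 isOpen_ball w h3
  exact ⟨l, W₁, γ, ch, μ, i, x, r₂, b, h1 h0 W₁ subset_rfl hg.isOpen h2, ha,
    hp.restrict h0 hr₂ hs, hx, h4, h5 h0, hv⟩

end

section
variable [IsManifold 𝓘(ℂ, Cm 4) ω Y] {V X : CSp} {k s : ℕ} {vV : Y → V.pt} {D : Set Y}
  {M : Fin (k + s) → Bd Y} {m : Fin (k + s) → ℕ}
  {L : Fin (k + s) → Bd X.pt} {c : Fin (k + s) → ℕ} {O : Set Y} {v : Y → X.pt}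
  {P Q : Fin (k + s) → ℕ}
  {T : ∀ e, (L e).ι → (((Bd.can 4 Y).pow (m e)).mul (M e)).ι → Y → ℂ} {ρ : Fin (k + s) → ℝ}
  {S Nc : Set X.pt} {N : Set Y} {H : Fin s → Type} [∀ i, TopologicalSpace (H i)]
  [∀ i, ChartedSpace (Cm 3) (H i)] {ι : ∀ i, H i → Y}
  {sg : ∀ i : Fin s, (M (Fin.natAdd k i)).ι → Y → ℂ} {r : ℕ} {G : Fin r → Set Y}
  {a : Fin r → ℝ} {Ks : Set (Fin r)}

/-- (C) injective wedges centred in `S` have positive lifts, or are open subsets of `Y`, centred in a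
`G l` -/
theorem wedge_altW (hM : ∀ e, IsLB 4 (M e))
    (htw : ∀ e, Tw0 vV D (((Bd.can 4 Y).pow (m e)).mul (M e)) X (L e) O v (P e) (Q e) (T e))
    (hlb : ∀ e, IsLBx X (L e))
    (hch : ∀ (W : Set (Cm 4)) (w₀ : Cm 4) (γ' : Cm 4 → X.pt) (i : ∀ e, (L e).ι), IsOpen W →
      w₀ ∈ W → w₀ 0 = 0 → (∀ w ∈ W, HolAt X γ' w) → W ⊆ closure {w | w ∈ W ∧ γ' w ∈ v '' O} →
      (∀ w ∈ W, ∀ e, γ' w ∈ (L e).U (i e)) → (∀ w ∈ W, w 0 = 0 → γ' w ∈ S ∧ γ' w ∉ Nc) →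
      ∃ w₁ ∈ W, w₁ 0 = 0 ∧ ∃ (W₁ : Set (Cm 4)) (γ₀ : Cm 4 → Y) (ch : Chart 4 Y)
        (c : ∀ e, (((Bd.can 4 Y).pow (m e)).mul (M e)).ι) (q : Fin (k + s) → ℚ), IsOpen W₁ ∧
        w₁ ∈ W₁ ∧ W₁ ⊆ W ∧
        (∀ w ∈ W₁, ContinuousAt γ₀ w ∧ At ch (γ₀ w) ∧ AnalyticAt ℂ (fun w => ch (γ₀ w)) w ∧
          ∀ e, γ₀ w ∈ (((Bd.can 4 Y).pow (m e)).mul (M e)).U (c e)) ∧
        (∀ w ∈ W₁, γ' w ∈ v '' O → γ₀ w ∈ O) ∧ (∀ w ∈ W₁, γ₀ w ∈ O → v (γ₀ w) = γ' w) ∧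
        (∀ e, HasOrd {w | γ₀ w ∈ O} w₁ (fun w => T e (i e) (c e) (γ₀ w)) (q e)) ∧
        (∃ b, OrdG G a γ₀ w₁ b ∧ b < ∑ e, ρ e / Q e * q e) ∧ ∀ w ∈ W₁, w 0 = 0 → γ₀ w ∉ N)
    (hcan : ∀ l ∉ Ks, 0 ≤ a l ∨ G l ⊆ N) (hK1 : ∀ l ∈ Ks, -1 ≤ a l)
    (hK2 : ∀ l ∈ Ks, ∀ l' ∈ Ks, l ≠ l' → G l ∩ G l' ⊆ N)
    (hK3 : ∀ l ∈ Ks, ∀ i, G l ∩ range (ι i) ⊆ N)
    (hρ : ∀ e, 0 < ρ e)
    (hlt : ∀ i : Fin s, ρ (Fin.natAdd k i) ≤ 1 ∨ range (ι i) ⊆ N)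
    (hbd : ∀ i, T3.IsBd (ι i) (M (Fin.natAdd k i)) (sg i))
    (hdis : Pairwise fun i j => Disjoint (range (ι i)) (range (ι j)))
    (hdn : ∀ i, range (ι i) ⊆ closure (range (ι i) ∩ O))
    (hsec : ∀ i, SecRel (L (Fin.natAdd k i))
      (((Bd.can 4 Y).pow (m (Fin.natAdd k i))).mul (M (Fin.natAdd k i))) O v
      (P (Fin.natAdd k i)) (Q (Fin.natAdd k i)) (T (Fin.natAdd k i)) (fun b y => sg i b.2 y))
    (hSO : S ⊆ (v '' O)ᶜ)
    {W : Set (Cm 4)} {w₀ : Cm 4} {φ : Cm 4 → X.pt} (hW : IsOpen W) (hw₀ : w₀ ∈ W) (h0 : w₀ 0 = 0)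
    (hφ : ∀ w ∈ W, HolAt X φ w) (hS : ∀ w ∈ W, w 0 = 0 → φ w ∈ S)
    (hNc : ∀ w ∈ W, φ w ∉ Nc)
    (hcl : W ⊆ closure {w | w ∈ W ∧ φ w ∈ v '' O})
    (hinj : InjOn φ {w | w ∈ W ∧ w 0 ≠ 0}) :
    ∃ w₁ ∈ W, w₁ 0 = 0 ∧ (LiftV O v
      (fun e : Fin k => (L (Fin.castAdd s e)).pow (P (Fin.castAdd s e)))
      (fun e => M (Fin.castAdd s e)) (fun e => m (Fin.castAdd s e)) (fun e => Q (Fin.castAdd s e))
      (fun e => T (Fin.castAdd s e)) (fun e => ρ (Fin.castAdd s e)) φ w₁ ∨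
      PlW O v T Q ρ S G a ι φ w₁) := by
  choose i hi using fun e => (hlb e).cover (φ w₀)
  set W' : Set (Cm 4) := {w | w ∈ W ∧ φ w ∈ ⋂ e, (L e).U (i e)} with hW'
  have hW'o : IsOpen W' := by
    have h1 : ContinuousOn φ W := fun w hw => (hφ w hw).1.continuousWithinAt
    exact h1.isOpen_inter_preimage hW (isOpen_iInter_of_finite fun e => (hlb e).isOpen (i e))
  have hcl' : W' ⊆ closure {w | w ∈ W' ∧ φ w ∈ v '' O} :=
    subset_closure_of_open hW'o (fun w hw => hw.1) hcl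
  have hW'i : ∀ w ∈ W', ∀ e, φ w ∈ (L e).U (i e) := fun w hw e => mem_iInter.1 hw.2 e
  obtain ⟨w₁, hw₁, hw₁0, W₁, γ, ch, cc, q, hW₁, hw₁W, hW₁W, hγ, hO1, hO2, hT,
    ⟨b, ⟨ζ, μ, A', hζ, hA', hA'f, hζA, hbs⟩, hpos⟩, hN⟩ :=
    hch W' w₀ φ i hW'o ⟨hw₀, mem_iInter.2 hi⟩ h0 (fun w hw => hφ w hw.1) hcl' hW'i
      fun w hw hw0 => ⟨hS w hw.1 hw0, hNc w hw.1⟩
  obtain ⟨g1, g2, g3, g4⟩ := hγ w₁ hw₁W
  have hW₁n := hW₁.mem_nhds hw₁W
  have hord : ∀ e, HasOrd {w | γ w ∈ O} w₁ (fun w => T e (i e) (ch, (cc e).2) (γ w)) (q e) := by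
    intro e
    refine hasOrd_change (hM e) (htw e).lb (htw e).iso hw₁0 g1 (φ := φ) ?_ ?_
      (e := (cc e).1) (g4 e).1 g2 (g4 e).2 g3 (hT e)
    · filter_upwards [hW₁n] with w hw using hW'i w (hW₁W hw) e
    · filter_upwards [hW₁n] with w hw using hO2 w hw
  -- the points of the centre are mapped to the complement of `O`
  have hO3 : ∀ w ∈ W₁, w 0 = 0 → γ w ∉ O := fun w hw hw0 hwO =>
    hSO (hS w (hW₁W hw).1 hw0) ⟨γ w, hwO, hO2 w hw hwO⟩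
  -- density
  have hfreq : ∀ w ∈ W₁, ∃ᶠ w' in 𝓝 w, γ w' ∈ O ∧ w' 0 ≠ 0 := by
    intro w hw
    rw [Filter.frequently_iff]
    intro U hU
    obtain ⟨w', ⟨h1, h2⟩, h3, h4⟩ := mem_closure_iff_nhds.1 (hcl (hW₁W hw).1) _
      (inter_mem hU (hW₁.mem_nhds hw))
    have h5 := hO1 w' h2 h4
    exact ⟨w', h1, h5, fun h6 => hO3 w' h2 h6 h5⟩
  have hsum : ∀ (K : ℕ), 1 ≤ K → ∀ ν : Fin (k + s) → ℤ, (∀ e, (ν e : ℚ) = q e * K) →
      ∑ e, ρ e / Q e * q e = ∑ e : Fin k, ρ (Fin.castAdd s e) * ν (Fin.castAdd s e) /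
        (Q (Fin.castAdd s e) * K) + ∑ j : Fin s, ρ (Fin.natAdd k j) * ν (Fin.natAdd k j) /
        (Q (Fin.natAdd k j) * K) := by
    intro K hK ν hν
    have h1 : ∀ e, ρ e / Q e * q e = ρ e * ν e / (Q e * K) := by
      intro e
      have h2 : (ν e : ℝ) = q e * K := by exact_mod_cast hν e
      have h3 : (K : ℝ) ≠ 0 := by exact_mod_cast (Nat.one_le_iff_ne_zero.1 hK)
      have h4 : (Q e : ℝ) ≠ 0 := by exact_mod_cast (Nat.one_le_iff_ne_zero.1 (htw e).hQ)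
      rw [h2]
      field_simp
    rw [Fin.sum_univ_add]
    exact congrArg₂ _ (Finset.sum_congr rfl fun e _ => h1 _) (Finset.sum_congr rfl fun e _ => h1 _)
  -- the conclusion, from the estimate of the Jacobian
  have fin : ∀ w₂ ∈ W₁, w₂ 0 = 0 → ∀ (K : ℕ) (ν : Fin (k + s) → ℤ) (Φ : Fin (k + s) → Cm 4 → ℂ),
      1 ≤ K → (∀ e, AnalyticAt ℂ (Φ e) w₂) → (∀ e, Φ e w₂ ≠ 0) →
      (∀ e, ∀ᶠ w in 𝓝 w₂, w ∈ {w | γ w ∈ O} → w 0 ≠ 0 →
        T e (i e) (ch, (cc e).2) (γ w) ^ K = w 0 ^ ν e * Φ e w) →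
      ∀ (J : ℕ) (C : ℝ), (∀ᶠ w in 𝓝 w₂, ‖(fderiv ℂ (fun w => ch (γ w)) w).det‖ ≤ C * ‖w 0‖ ^ J) →
      0 < ∑ e : Fin k, ρ (Fin.castAdd s e) * ν (Fin.castAdd s e) /
        (Q (Fin.castAdd s e) * K) + J →
      LiftV O v
        (fun e : Fin k => (L (Fin.castAdd s e)).pow (P (Fin.castAdd s e)))
        (fun e => M (Fin.castAdd s e)) (fun e => m (Fin.castAdd s e))
        (fun e => Q (Fin.castAdd s e)) (fun e => T (Fin.castAdd s e))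
        (fun e => ρ (Fin.castAdd s e)) φ w₂ := by
    intro w₂ hw₂W hw₂0 K ν Φ hK hΦ hΦ0 hrel J C hC hp
    obtain ⟨k1, k2, k3, k4⟩ := hγ w₂ hw₂W
    refine ⟨γ, ch, fun e => (cc (Fin.castAdd s e)).2,
      fun e => i (Fin.castAdd s e), K, fun e => ν (Fin.castAdd s e),
      fun e => Φ (Fin.castAdd s e), J, C, hK, k1, k2, fun e => (k4 _).2, k3, ?_,
      fun e => hW'i w₂ (hW₁W hw₂W) _, fun e => ⟨hΦ _, hΦ0 _⟩, fun e => hrel _, hC, hp⟩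
    filter_upwards [hW₁.mem_nhds hw₂W] with w hw hwO
    have h6 := hO1 w hw hwO
    exact ⟨h6, hO2 w hw h6⟩
  have hdetA : AnalyticAt ℂ (fun w => (fderiv ℂ (fun w => ch (γ w)) w).det) w₁ :=
    H19.analyticAt_det g3
  by_cases hdet : ∀ᶠ w in 𝓝 w₁, (fderiv ℂ (fun w => ch (γ w)) w).det = 0
  · -- the Jacobian vanishes identically
    obtain ⟨w₂, ⟨hw₂0, K, hK, hdat⟩, hw₂W, hd2⟩ :=
      ((exists_unit' hw₁0 hord).and_eventually
        ((hW₁.eventually_mem hw₁W).and hdet.eventually_nhds)).exists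
    choose ν Φ hν hΦ hΦ0 hrel using hdat
    obtain ⟨J, hJ⟩ := exists_nat_gt (-(∑ e : Fin k, ρ (Fin.castAdd s e) * ν (Fin.castAdd s e) /
        (Q (Fin.castAdd s e) * K)))
    refine ⟨w₂, (hW₁W hw₂W).1, hw₂0, Or.inl ?_⟩
    refine fin w₂ hw₂W hw₂0 K ν Φ hK hΦ hΦ0 hrel J 0 ?_ (by linarith)
    filter_upwards [hd2] with w hw
    rw [hw, norm_zero, zero_mul]
  · obtain ⟨J, A₀, hA₀, hJ, hA₀ne⟩ := H19.exists_max_pow hdetA hw₁0 hdet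
    have hfr : ∀ {B : Cm 4 → ℂ}, (¬ ∀ᶠ w in 𝓝 w₁, w 0 = 0 → B w = 0) →
        ∃ᶠ w in 𝓝 w₁, w 0 = 0 ∧ B w ≠ 0 := by
      intro B hB
      rw [Filter.not_eventually] at hB
      refine hB.mono fun w hw => ?_
      push Not at hw
      exact hw
    -- the sections
    have hsa : ∀ j, AnalyticAt ℂ (fun w => sg j (cc (Fin.natAdd k j)).2 (γ w)) w₁ := fun j =>
      analyticAt_comp_chart g1 g2 g3 ((hbd j).sec.holo _ ch _ g2 (g4 _).2).analyticAt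
    have hsne : ∀ j, ¬ ∀ᶠ w in 𝓝 w₁, sg j (cc (Fin.natAdd k j)).2 (γ w) = 0 := by
      intro j hz
      refine hdet ?_
      filter_upwards [hz.eventually_nhds, hW₁n] with w h1 h2
      obtain ⟨k1, k2, k3, k4⟩ := hγ w h2
      exact det_zero_of_sub (hbd j) (fun μ => (hM _).isOpen μ) k1 k2 k3 (k4 _).2 h1.self_of_nhds h1
    choose g A hA hgA hAne using fun j => H19.exists_max_pow (hsa j) hw₁0 (hsne j)
    have hprod : ∃ᶠ w in 𝓝 w₁, w 0 = 0 ∧ ∏ j, A j w ≠ 0 :=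
      (freq_prod hw₁0 Finset.univ hA fun j => hfr (hAne j)).mono fun w hw =>
        ⟨hw.1, Finset.prod_ne_zero_iff.2 hw.2⟩
    have hprod' : ∃ᶠ w in 𝓝 w₁, w 0 = 0 ∧ ∏ l, A' l w ≠ 0 :=
      (freq_prod hw₁0 Finset.univ hA' hA'f).mono fun w hw =>
        ⟨hw.1, Finset.prod_ne_zero_iff.2 hw.2⟩
    have hPa : AnalyticAt ℂ (fun w => ∏ j, A j w) w₁ :=
      Finset.analyticAt_fun_prod Finset.univ fun j _ => hA j
    have hPa' : AnalyticAt ℂ (fun w => ∏ l, A' l w) w₁ :=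
      Finset.analyticAt_fun_prod Finset.univ fun l _ => hA' l
    have hCa : AnalyticAt ℂ (fun w => (A₀ w * ∏ j, A j w) * ∏ l, A' l w) w₁ :=
      (hA₀.mul hPa).mul hPa'
    have hCf := freq_mul' hw₁0 (hA₀.mul hPa) hPa' (freq_mul' hw₁0 hA₀ hPa (hfr hA₀ne) hprod)
      hprod'
    -- the local equations of the `G l`
    have hζev : ∀ l, ∀ᶠ w₂ in 𝓝 w₁, AnalyticAt ℂ (A' l) w₂ ∧
        (∀ᶠ w in 𝓝 w₂, ζ l (γ w) = w 0 ^ μ l * A' l w) ∧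
        (∀ᶠ w in 𝓝 w₂, ζ l (γ w) = 0 ↔ γ w ∈ G l) ∧
        (1 ≤ μ l → AnalyticAt ℂ (fun z => ζ l (ch.symm z)) (ch (γ w₂)) ∧
          fderiv ℂ (fun z => ζ l (ch.symm z)) (ch (γ w₂)) ≠ 0) := by
      intro l
      refine (hA' l).eventually_analyticAt.and ((hζA l).eventually_nhds.and
        ((g1.eventually (hζ l).1).eventually_nhds.and ?_))
      by_cases hμ : 1 ≤ μ l
      · obtain ⟨h1, h2⟩ := (hζ l).2 ch g2
        have h3 : ζ l (γ w₁) = 0 := by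
          rw [(hζA l).self_of_nhds, hw₁0, zero_pow (by omega), zero_mul]
        have h4 := h1.eventually_analyticAt.and (h1.fderiv.continuousAt.eventually_ne (h2 h3))
        filter_upwards [g3.continuousAt.eventually h4] with w hw _ using hw
      · exact Filter.Eventually.of_forall fun w h => absurd h hμ
    have hev : ∀ᶠ w₂ in 𝓝 w₁, w₂ ∈ W₁ ∧ AnalyticAt ℂ A₀ w₂ ∧
        (∀ᶠ w in 𝓝 w₂, (fderiv ℂ (fun w => ch (γ w)) w).det = w 0 ^ J * A₀ w) ∧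
        (∀ j, AnalyticAt ℂ (A j) w₂ ∧
          ∀ᶠ w in 𝓝 w₂, sg j (cc (Fin.natAdd k j)).2 (γ w) = w 0 ^ g j * A j w) ∧
        (∀ l, AnalyticAt ℂ (A' l) w₂ ∧
        (∀ᶠ w in 𝓝 w₂, ζ l (γ w) = w 0 ^ μ l * A' l w) ∧
        (∀ᶠ w in 𝓝 w₂, ζ l (γ w) = 0 ↔ γ w ∈ G l) ∧
        (1 ≤ μ l → AnalyticAt ℂ (fun z => ζ l (ch.symm z)) (ch (γ w₂)) ∧
          fderiv ℂ (fun z => ζ l (ch.symm z)) (ch (γ w₂)) ≠ 0)) ∧
        ∀ e, ∀ᶠ w in 𝓝 w₂, w 0 = 0 → HasOrd {w | γ w ∈ O} w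
          (fun w => T e (i e) (ch, (cc e).2) (γ w)) (q e) := by
      refine (hW₁.eventually_mem hw₁W).and (hA₀.eventually_analyticAt.and
        (hJ.eventually_nhds.and (Filter.Eventually.and ?_ ((eventually_all.2 hζev).and
          (eventually_all.2 fun e => ((hord e).eventually hw₁0).eventually_nhds)))))
      rw [eventually_all]
      exact fun j => (hA j).eventually_analyticAt.and (hgA j).eventually_nhds
    have hog := ordG_near (G := G) (a := a) (b := b) ⟨ζ, μ, A', hζ, hA', hA'f, hζA, hbs⟩ g1 hw₁0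
    obtain ⟨w₂, ⟨hw₂0, hC, K, hK, hdat⟩, ⟨hw₂W, hA₀2, hJ2, hA2, hζ2, hord2⟩, hog2⟩ :=
      ((exists_unit'' hw₁0 hord hCa hCf).and_eventually (hev.and hog)).exists
    choose ν Φ hν hΦ hΦ0 hrel using hdat
    have hA₀0 : A₀ w₂ ≠ 0 := left_ne_zero_of_mul (left_ne_zero_of_mul hC)
    have hA0 : ∀ j, A j w₂ ≠ 0 := fun j =>
      Finset.prod_ne_zero_iff.1 (right_ne_zero_of_mul (left_ne_zero_of_mul hC)) j
        (Finset.mem_univ j)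
    have hA'0 : ∀ l, A' l w₂ ≠ 0 := fun l =>
      Finset.prod_ne_zero_iff.1 (right_ne_zero_of_mul hC) l (Finset.mem_univ l)
    obtain ⟨k1, k2, k3, k4⟩ := hγ w₂ hw₂W
    have hgJ : ∀ j, g j ≤ J := fun j =>
      order_le_jac (hbd j) (fun μ => (hM _).isOpen μ) (hdn j) hw₂0 k1 k2 k3 (by
        filter_upwards [hW₁.mem_nhds hw₂W] with w hw hw0 using hO3 w hw hw0) (k4 _).2
        (hA2 j).1 (hA0 j) hA₀2 hA₀0 (hA2 j).2 hJ2
    have hνg : ∀ j, ν (Fin.natAdd k j) ≤ Q (Fin.natAdd k j) * K * g j := by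
      intro j
      obtain ⟨h, hh, hrel'⟩ := hsec j
      have hφ2 : HolAt X φ w₂ := hφ w₂ (hW₁W hw₂W).1
      refine ord_le_of_rel (D := {w | γ w ∈ O}) (η := fun w => h (i (Fin.natAdd k j)) (φ w)) hw₂0
        (hfreq w₂ hw₂W) (hΦ (Fin.natAdd k j)).continuousAt
        (hφ2.2 _ (hh.holo _ _ (mem_univ _) (hW'i w₂ (hW₁W hw₂W) _))).continuousAt
        (hA2 j).1.continuousAt (hA0 j) (hrel (Fin.natAdd k j)) ?_
      filter_upwards [hW₁.mem_nhds hw₂W, (hA2 j).2] with w hw h1 hwO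
      obtain ⟨m1, m2, m3, m4⟩ := hγ w hw
      have h2 := hrel' (γ w) hwO (i (Fin.natAdd k j)) (ch, (cc (Fin.natAdd k j)).2)
        (by rw [hO2 w hw hwO]; exact hW'i w (hW₁W hw) _) ⟨m2, (m4 _).2⟩
      rw [hO2 w hw hwO] at h2
      simp only at h2
      rw [h2, h1]
    have hsum1 : ∑ j : Fin s, ρ (Fin.natAdd k j) * ν (Fin.natAdd k j) /
        (Q (Fin.natAdd k j) * K) ≤ ∑ j : Fin s, ρ (Fin.natAdd k j) * g j := by
      refine Finset.sum_le_sum fun j _ => ?_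
      have h1 : (0 : ℝ) < Q (Fin.natAdd k j) * K := by
        have h2 := Nat.mul_pos (htw (Fin.natAdd k j)).hQ hK
        exact_mod_cast h2
      rw [div_le_iff₀ h1]
      have h3 : (ν (Fin.natAdd k j) : ℝ) ≤ Q (Fin.natAdd k j) * K * g j := by
        exact_mod_cast hνg j
      have h4 := mul_le_mul_of_nonneg_left h3 (hρ (Fin.natAdd k j)).le
      linarith
    -- the centre is in `G l` if `1 ≤ μ l`
    have hμG : ∀ l, 1 ≤ μ l → γ w₂ ∈ G l := fun l hl => by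
      refine (hζ2 l).2.2.1.self_of_nhds.1 ?_
      rw [(hζ2 l).2.1.self_of_nhds, hw₂0, zero_pow (by omega), zero_mul]
    have hμcan : ∀ l ∉ Ks, 0 ≤ a l ∨ μ l = 0 := by
      intro l hl
      refine (hcan l hl).imp_right fun h => ?_
      by_contra h1
      exact hN w₂ hw₂W hw₂0 (h (hμG l (by omega)))
    have hμdis : ∀ l ∈ Ks, ∀ l' ∈ Ks, l ≠ l' → 1 ≤ μ l → μ l' = 0 := by
      intro l hl l' hl' hll hμ
      by_contra h3
      exact hN w₂ hw₂W hw₂0 (hK2 l hl l' hl' hll ⟨hμG l hμ, hμG l' (by omega)⟩)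
    refine ⟨w₂, (hW₁W hw₂W).1, hw₂0, ?_⟩
    by_cases hp : 0 < ∑ e : Fin k, ρ (Fin.castAdd s e) * ν (Fin.castAdd s e) /
        (Q (Fin.castAdd s e) * K) + (J : ℝ)
    · left
      refine fin w₂ hw₂W hw₂0 K ν Φ hK hΦ hΦ0 hrel J (‖A₀ w₂‖ + 1) ?_ hp
      filter_upwards [hJ2, hA₀2.continuousAt.norm.eventually_lt continuousAt_const
        (lt_add_one _)] with w h1 h2
      rw [h1, norm_mul, norm_pow, mul_comm]
      exact mul_le_mul_of_nonneg_right h2.le (by positivity)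
    right
    have hJ0 : J = 0 := by
      by_contra hJ1
      refine hp ?_
      have hμJ : ∀ l ∈ Ks, μ l ≤ J := by
        intro l hl
        by_contra hlt'
        have hμ1 : 1 ≤ μ l := by omega
        obtain ⟨h1, h2⟩ := (hζ2 l).2.2.2 hμ1
        obtain ⟨τ, hτ1, hτ2⟩ := exists_sym hw₂0 k1 k2 k3 h1 h2 (g := μ l) (J := J) (by omega)
          (hζ2 l).1 (hA'0 l) hA₀2 hA₀0 (hζ2 l).2.1 hJ2 hlt'
        obtain ⟨w, ⟨hwO, hw0⟩, hwW, hτW, hw⟩ := ((hfreq w₂ hw₂W).and_eventually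
          ((hW₁.eventually_mem hw₂W).and ((hτ1.eventually (hW₁.eventually_mem hw₂W)).and
            hτ2))).exists
        obtain ⟨h3, h4, h5⟩ := hw hw0
        refine h3 (hinj ⟨(hW₁W hτW).1, h4⟩ ⟨(hW₁W hwW).1, hw0⟩ ?_)
        rw [← hO2 w hwW hwO, ← hO2 _ hτW (by rw [h5]; exact hwO), h5]
      have hsum2 : ∑ j : Fin s, ρ (Fin.natAdd k j) * g j ≤ ∑ l, a l * μ l + J := by
        by_cases hex : ∃ j, 1 ≤ g j
        · obtain ⟨j, hj⟩ := hex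
          have hmem : ∀ j, 1 ≤ g j → γ w₂ ∈ range (ι j) := by
            intro j hj
            refine ((hbd j).zero _ _ (k4 (Fin.natAdd k j)).2).1 ?_
            rw [(hA2 j).2.self_of_nhds, hw₂0, zero_pow (by omega), zero_mul]
          have h1 : ∀ j' ∈ Finset.univ, j' ≠ j → ρ (Fin.natAdd k j') * g j' = 0 := by
            intro j' _ hjj
            have h2 : g j' = 0 := by
              by_contra h3
              exact disjoint_left.1 (hdis hjj) (hmem j' (by omega)) (hmem j hj)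
            rw [h2, Nat.cast_zero, mul_zero]
          rw [Finset.sum_eq_single j h1 fun h => absurd (Finset.mem_univ j) h]
          have h3 : (g j : ℝ) ≤ J := by exact_mod_cast hgJ j
          have h4 : (0 : ℝ) ≤ g j := Nat.cast_nonneg _
          have h5 : ρ (Fin.natAdd k j) ≤ 1 :=
            (hlt j).resolve_right fun h => hN w₂ hw₂W hw₂0 (h (hmem j hj))
          have h6 : 0 ≤ ∑ l, a l * (μ l : ℝ) := sum_nonneg' hμcan fun l hl => by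
            by_contra h7
            have h8 := hμG l (by omega)
            exact hN w₂ hw₂W hw₂0 (hK3 l hl j ⟨h8, hmem j hj⟩)
          nlinarith
        · push Not at hex
          have h1 : ∀ j, g j = 0 := fun j => by have := hex j; omega
          simp only [h1, Nat.cast_zero, mul_zero, Finset.sum_const_zero]
          have h2 := sum_bound hμcan hK1 hμJ hμdis
          linarith
      rw [hsum K hK ν hν, hbs] at hpos
      linarith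
    subst hJ0
    have hμ1 : ∀ l, μ l ≤ 1 := by
      intro l
      rcases Nat.eq_zero_or_pos (μ l) with h1 | h1
      · omega
      · obtain ⟨h2, h3⟩ := (hζ2 l).2.2.2 h1
        exact (exists_fac hw₂0 k1 k2 k3 h2 h3 h1 (hζ2 l).1 (hA'0 l) hA₀2 hA₀0 (hζ2 l).2.1 hJ2).1
    have hg0 : ∀ j, g j = 0 := fun j => by have := hgJ j; omega
    have hν0 : ∀ j : Fin s, ν (Fin.natAdd k j) ≤ 0 := fun j => by
      have := hνg j
      rwa [hg0 j, Nat.cast_zero, mul_zero] at this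
    have hsum3 : ∑ j : Fin s, ρ (Fin.natAdd k j) * (g j : ℝ) = 0 :=
      Finset.sum_eq_zero fun j _ => by rw [hg0 j, Nat.cast_zero, mul_zero]
    have hbneg : ∑ l, a l * (μ l : ℝ) < 0 := by
      rw [hsum K hK ν hν, hbs] at hpos
      push Not at hp
      rw [Nat.cast_zero, add_zero] at hp
      linarith
    obtain ⟨l, hal⟩ : ∃ l, a l * (μ l : ℝ) < 0 := by
      by_contra hcon
      push Not at hcon
      exact absurd (Finset.sum_nonneg fun l _ => hcon l) (not_le.2 hbneg)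
    have hl : 1 ≤ μ l := by
      by_contra h
      have h2 : μ l = 0 := by omega
      rw [h2, Nat.cast_zero, mul_zero] at hal
      exact lt_irrefl _ hal
    have hal' : a l < 0 := by
      by_contra h
      push Not at h
      exact absurd (mul_nonneg h (Nat.cast_nonneg (μ l))) (not_le.2 hal)
    have hno : ∀ j, γ w₂ ∉ range (ι j) := by
      intro j hj
      have h1 := ((hbd j).zero _ _ (k4 (Fin.natAdd k j)).2).2 hj
      rw [(hA2 j).2.self_of_nhds, hg0 j, pow_zero, one_mul] at h1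
      exact hA0 j h1
    -- the germ
    have hW₂ : ∀ᶠ w in 𝓝 w₂, w ∈ W₁ ∧ ∀ e, w 0 = 0 → HasOrd {w | γ w ∈ O} w
        (fun w => T e (i e) (ch, (cc e).2) (γ w)) (q e) :=
      (hW₁.eventually_mem hw₂W).and (eventually_all.2 hord2)
    obtain ⟨W₂, hW₂s, hW₂o, hw₂W₂⟩ := _root_.mem_nhds_iff.1 hW₂
    have hdet0 : (fderiv ℂ (fun w => ch (γ w)) w₂).det ≠ 0 := by
      rw [hJ2.self_of_nhds, pow_zero, one_mul]
      exact hA₀0
    obtain ⟨r₁, hr₁⟩ := isPar_of_det (E := G l) hw₂0 hW₁ hw₂W (fun w hw =>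
        ⟨(hγ w hw).1, (hγ w hw).2.1, (hγ w hw).2.2.1⟩) hdet0 (by
      filter_upwards [(hζ2 l).2.1, (hζ2 l).2.2.1, (hζ2 l).1.continuousAt.eventually_ne (hA'0 l)]
        with w h1 h2 h3
      rw [← h2, h1, mul_eq_zero, pow_eq_zero_iff (by omega)]
      exact or_iff_left h3)
    refine ⟨l, W₂, γ, ch, fun e => (cc e).2, i, q, r₁, b, ⟨hW₂o, hw₂W₂, hw₂0,
      fun w hw => hφ w (hW₁W (hW₂s hw).1).1, fun w hw => hS w (hW₁W (hW₂s hw).1).1, ?_,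
      fun w hw => ?_, fun w hw e => ?_, fun w hw => hW'i w (hW₁W (hW₂s hw).1),
      fun w hw => hO1 w (hW₂s hw).1, fun w hw => hO2 w (hW₂s hw).1,
      fun w hw hw0 e => (hW₂s hw).2 e hw0, ⟨A₀, hA₀2, hA₀0, hJ2⟩, K, hK, fun e =>
        ⟨ν e, Φ e, hν e, hΦ e, hΦ0 e, hrel e⟩⟩, hal', hr₁, fun j => ?_, hno, hog2 hw₂0, hpos⟩
    · exact subset_closure_of_open hW₂o (fun w hw => (hW₁W (hW₂s hw).1).1) hcl
    · obtain ⟨m1, m2, m3, -⟩ := hγ w (hW₂s hw).1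
      exact ⟨m1, m2, m3⟩
    · exact ((hγ w (hW₂s hw).1).2.2.2 e).2
    · have h1 := hν0 j
      have h2 : (ν (Fin.natAdd k j) : ℚ) = q (Fin.natAdd k j) * K := hν _
      have h3 : (ν (Fin.natAdd k j) : ℚ) ≤ 0 := by exact_mod_cast h1
      have h4 : (0 : ℚ) < K := by exact_mod_cast hK
      rw [h2] at h3
      by_contra hcon
      push Not at hcon
      exact absurd (mul_pos hcon h4) (not_lt.2 h3)

end

/-- A flipped surface along which the space `X` is singular: all wedges of a good covering are open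
subsets of the resolution, centred in the `G l`. -/
theorem stage_W {Y : Type} [TopologicalSpace Y] [T2Space Y] [CompactSpace Y]
    [ChartedSpace (Cm 4) Y] [IsManifold 𝓘(ℂ, Cm 4) ω Y]
    {χ : Chart 4 Y → Cm 4 → Matrix (Fin 4) (Fin 4) ℂ} (hχ : IsKahler χ) {k s : ℕ}
    {V₀ X : CSp} {vV : Y → V₀.pt} {D : Set Y}
    {M : Fin (k + s) → Bd Y} {m : Fin (k + s) → ℕ}
    {L : Fin (k + s) → Bd X.pt} {O : Set Y} {v : Y → X.pt}
    {P Q : Fin (k + s) → ℕ}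
    {T : ∀ e, (L e).ι → (((Bd.can 4 Y).pow (m e)).mul (M e)).ι → Y → ℂ} {ρ : Fin (k + s) → ℝ}
    {S Nc : Set X.pt} {N : Set Y} {H : Fin s → Type} [∀ i, TopologicalSpace (H i)]
    [∀ i, ChartedSpace (Cm 3) (H i)] {ι : ∀ i, H i → Y}
    {sg : ∀ i : Fin s, (M (Fin.natAdd k i)).ι → Y → ℂ} {r : ℕ} {G : Fin r → Set Y}
    {a : Fin r → ℝ} {Ks : Set (Fin r)}
    (hNef : ∀ e : Fin k, Nef χ (M (Fin.castAdd s e)))
    (hm : ∀ e : Fin k, 1 ≤ m (Fin.castAdd s e))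
    (hsum : ∑ e : Fin k, ρ (Fin.castAdd s e) * m (Fin.castAdd s e) = 1)
    (hX : IsNormal 4 X) (hv : IsOpenEmb X O v) (hO : DimLe X 2 (v '' O)ᶜ)
    (hM : ∀ e, IsLB 4 (M e))
    (htw : ∀ e, Tw0 vV D (((Bd.can 4 Y).pow (m e)).mul (M e)) X (L e) O v (P e) (Q e) (T e))
    (hlb : ∀ e, IsLBx X (L e))
    (hch : ∀ (W : Set (Cm 4)) (w₀ : Cm 4) (γ' : Cm 4 → X.pt) (i : ∀ e, (L e).ι), IsOpen W →
      w₀ ∈ W → w₀ 0 = 0 → (∀ w ∈ W, HolAt X γ' w) → W ⊆ closure {w | w ∈ W ∧ γ' w ∈ v '' O} →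
      (∀ w ∈ W, ∀ e, γ' w ∈ (L e).U (i e)) → (∀ w ∈ W, w 0 = 0 → γ' w ∈ S ∧ γ' w ∉ Nc) →
      ∃ w₁ ∈ W, w₁ 0 = 0 ∧ ∃ (W₁ : Set (Cm 4)) (γ₀ : Cm 4 → Y) (ch : Chart 4 Y)
        (c : ∀ e, (((Bd.can 4 Y).pow (m e)).mul (M e)).ι) (q : Fin (k + s) → ℚ), IsOpen W₁ ∧
        w₁ ∈ W₁ ∧ W₁ ⊆ W ∧
        (∀ w ∈ W₁, ContinuousAt γ₀ w ∧ At ch (γ₀ w) ∧ AnalyticAt ℂ (fun w => ch (γ₀ w)) w ∧
          ∀ e, γ₀ w ∈ (((Bd.can 4 Y).pow (m e)).mul (M e)).U (c e)) ∧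
        (∀ w ∈ W₁, γ' w ∈ v '' O → γ₀ w ∈ O) ∧ (∀ w ∈ W₁, γ₀ w ∈ O → v (γ₀ w) = γ' w) ∧
        (∀ e, HasOrd {w | γ₀ w ∈ O} w₁ (fun w => T e (i e) (c e) (γ₀ w)) (q e)) ∧
        (∃ b, OrdG G a γ₀ w₁ b ∧ b < ∑ e, ρ e / Q e * q e) ∧ ∀ w ∈ W₁, w 0 = 0 → γ₀ w ∉ N)
    (hcan : ∀ l ∉ Ks, 0 ≤ a l ∨ G l ⊆ N) (hK1 : ∀ l ∈ Ks, -1 ≤ a l)
    (hK2 : ∀ l ∈ Ks, ∀ l' ∈ Ks, l ≠ l' → G l ∩ G l' ⊆ N)
    (hK3 : ∀ l ∈ Ks, ∀ i, G l ∩ range (ι i) ⊆ N)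
    (hρ : ∀ e, 0 < ρ e)
    (hlt : ∀ i : Fin s, ρ (Fin.natAdd k i) ≤ 1 ∨ range (ι i) ⊆ N)
    (hbd : ∀ i, T3.IsBd (ι i) (M (Fin.natAdd k i)) (sg i))
    (hdis : Pairwise fun i j => Disjoint (range (ι i)) (range (ι j)))
    (hdn : ∀ i, range (ι i) ⊆ closure (range (ι i) ∩ O))
    (hsec : ∀ i, SecRel (L (Fin.natAdd k i))
      (((Bd.can 4 Y).pow (m (Fin.natAdd k i))).mul (M (Fin.natAdd k i))) O v
      (P (Fin.natAdd k i)) (Q (Fin.natAdd k i)) (T (Fin.natAdd k i)) (fun b y => sg i b.2 y))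
    (hSO : S ⊆ (v '' O)ᶜ) (hSan : IsAn X univ S) (hNc : IsClosed Nc)
    (hbad : ¬ DimLe X 1 {x | x ∈ S ∧ ¬ IsReg 4 X x ∧ x ∈ Ncᶜ}) :
    StgW O v T Q ρ S Nc G a ι := by
  have hS2 : DimLe X 2 S := hO.mono hSO
  obtain ⟨U₀, hU₀s, hU₀, hS1, hU₀r⟩ : ∃ U₀ ⊆ Ncᶜ, IsOpen U₀ ∧ ¬ DimLe X 1 (S ∩ U₀) ∧
      ∀ x ∈ S ∩ U₀, ¬ IsReg 4 X x := by
    by_contra hcon
    push Not at hcon
    exact hbad (sing_loc hX hv hO hSan hS2 hNc.isOpen_compl fun U₀ h1 h2 h3 => hcon U₀ h1 h2 h3)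
  obtain ⟨V', Gc, c, rr, d, lm, θ, nn, ζ, hVU, hg, hζ⟩ := TX.stMinLoc_final Y X hX O v hv
    hO S hSan U₀ hU₀ (fun x hx => hSO hx.1) hS1
  have hd1 : 1 ≤ d := hg.dpos
  have hd2 : 2 ≤ d := by
    by_contra hcon
    have hd : d = 1 := by omega
    subst hd
    have hc := hg.toIsCov
    obtain ⟨x, hxV, hxc⟩ := (hc.finite c (mem_ball_self hc.pos)).2
    have hxS : x ∈ S := (hg.memS x hxV).2 (by rw [hxc]; exact ⟨hg.c0, hg.c1⟩)
    obtain ⟨s, hs1, hs2⟩ := (H335.IsCov.toPre hc).sec_of_one (fun a ha b hb hab hθ => by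
      obtain ⟨y, hy⟩ := hc.enum (Gc a) (hc.maps a ha) hθ
      obtain ⟨k, hk⟩ := (hy.2 a).2 ⟨ha, rfl⟩
      obtain ⟨l, hl⟩ := (hy.2 b).2 ⟨hb, hab.symm⟩
      rw [← hk, ← hl, Subsingleton.elim k l]) ⟨x, hxV⟩ hζ
    exact hU₀r x ⟨hxS, hVU hxV⟩ (H371.isReg_of_sec hc.holo ⟨V', s, hc.isOpen, hxV, Subset.rfl,
      hc.openMap _ Subset.rfl hc.isOpen, fun y hy => ⟨hs2 y hy, (hs1 _ (hc.maps y hy)).2.2⟩⟩)
  -- the wedges
  have hPo : ∀ (φ : Cm 4 → X.pt) (w : Cm 4), HolAt X φ w → (w 0 = 0 → (LiftV O v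
      (fun e : Fin k => (L (Fin.castAdd s e)).pow (P (Fin.castAdd s e)))
      (fun e => M (Fin.castAdd s e)) (fun e => m (Fin.castAdd s e)) (fun e => Q (Fin.castAdd s e))
      (fun e => T (Fin.castAdd s e)) (fun e => ρ (Fin.castAdd s e)) φ w ∨
      PlW O v T Q ρ S G a ι φ w)) → ∀ᶠ w' in 𝓝 w, (w' 0 = 0 → (LiftV O v
      (fun e : Fin k => (L (Fin.castAdd s e)).pow (P (Fin.castAdd s e)))
      (fun e => M (Fin.castAdd s e)) (fun e => m (Fin.castAdd s e)) (fun e => Q (Fin.castAdd s e))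
      (fun e => T (Fin.castAdd s e)) (fun e => ρ (Fin.castAdd s e)) φ w' ∨
      PlW O v T Q ρ S G a ι φ w')) := by
    intro φ w hφ h
    by_cases hw0 : w 0 = 0
    · rcases h hw0 with h1 | h1
      · filter_upwards [RC.liftV_eventually (fun e => hM _) (fun e => (htw _).lb) hφ.1 h1]
          with w' h2 _
        exact Or.inl h2
      · filter_upwards [plW_near hM hbd h1] with w' h2 h0
        exact Or.inr (h2 h0)
    · filter_upwards [(continuous_apply 0).continuousAt.eventually_ne hw0] with w' h2 h3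
      exact absurd h3 h2
  obtain ⟨V₁, r₁, aa, b, κ, Nn, sS, σ, φ, w₁, hst, hV₁, ⟨i₀, hi₀⟩, hP⟩ :=
    H884.S.exists_stp (ι' := ∀ e, (L e).ι) (U := fun i => ⋂ e, (L e).U (i e)) hX hv hO hSan hS2 hg
    hζ hPo (fun W w₀ φ hW hw₀ h0 hφ hS hcl hV hinj => by
      obtain ⟨w₁, h1, h2, h3⟩ := wedge_altW hM htw hlb hch hcan hK1 hK2 hK3 hρ hlt hbd hdis hdn hsec
        hSO hW hw₀ h0 hφ hS (fun w hw => hU₀s (hVU (hV w hw))) hcl hinj
      exact ⟨w₁, h1, h2, fun _ => h3⟩)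
    (fun i => isOpen_iInter_of_finite fun e => (hlb e).isOpen _)
    (fun x => by
      choose i hi using fun e => (hlb e).cover x
      exact ⟨i, mem_iInter.2 hi⟩)
  have h0 := hst.w0
  have hφ₁ : ∀ k', HolAt X (φ k') w₁ := fun k' => (hst.pui k').self_of_nhds.1
  have hφV : ∀ k', φ k' w₁ ∈ V₁ := fun k' => (hst.pui k').self_of_nhds.2.1
  have hi₀' : ∀ k' e, φ k' w₁ ∈ (L e).U (i₀ e) := fun k' e => mem_iInter.1 (hi₀ (hφV k')) e
  have hVL : ∀ e, V₁ ⊆ (L e).U (i₀ e) := fun e x hx => mem_iInter.1 (hi₀ hx) e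
  have hP' := fun k' => hP k' h0
  have hall : ∀ k', ∃ (γ : Cm 4 → Y) (ch : Chart 4 Y) (μ : ∀ e : Fin k, (M (Fin.castAdd s e)).ι)
      (τ : Fin k → ℝ) (J : ℕ), VL0 O v
      (fun e : Fin k => (L (Fin.castAdd s e)).pow (P (Fin.castAdd s e)))
      (fun e => M (Fin.castAdd s e)) (fun e => m (Fin.castAdd s e)) (fun e => Q (Fin.castAdd s e))
      (fun e => T (Fin.castAdd s e)) (φ k') w₁ (fun e => i₀ (Fin.castAdd s e)) γ ch μ τ J ∧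
      (LiftV O v (fun e : Fin k => (L (Fin.castAdd s e)).pow (P (Fin.castAdd s e)))
        (fun e => M (Fin.castAdd s e)) (fun e => m (Fin.castAdd s e)) (fun e => Q (Fin.castAdd s e))
        (fun e => T (Fin.castAdd s e)) (fun e => ρ (Fin.castAdd s e)) (φ k') w₁ →
        0 < ∑ e, ρ (Fin.castAdd s e) * (τ e / Q (Fin.castAdd s e)) + J) := by
    intro k'
    by_cases hl : LiftV O v (fun e : Fin k => (L (Fin.castAdd s e)).pow (P (Fin.castAdd s e)))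
        (fun e => M (Fin.castAdd s e)) (fun e => m (Fin.castAdd s e)) (fun e => Q (Fin.castAdd s e))
        (fun e => T (Fin.castAdd s e)) (fun e => ρ (Fin.castAdd s e)) (φ k') w₁
    · obtain ⟨γ, ch, μ, τ, J, h1⟩ := liftV_vl (fun e => hM _) (fun e => (htw _).lb)
        (fun e => (htw _).iso) (hφ₁ k') (i₀ := fun e => i₀ (Fin.castAdd s e)) (fun e => hi₀' k' _) hl
      exact ⟨γ, ch, μ, τ, J, VL0.of_vl h1, fun _ => h1.pos⟩
    · obtain ⟨l, W₁, γ, ch, μ, i, x, r₁, b, hgm, -⟩ := (hP' k').resolve_left hl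
      exact ⟨γ, ch, _, _, 0, vl0_of_germ hM htw hgm (hi₀' k'), fun h => (hl h).elim⟩
  have hno : ∀ k', ¬ LiftV O v (fun e : Fin k => (L (Fin.castAdd s e)).pow (P (Fin.castAdd s e)))
      (fun e => M (Fin.castAdd s e)) (fun e => m (Fin.castAdd s e)) (fun e => Q (Fin.castAdd s e))
      (fun e => T (Fin.castAdd s e)) (fun e => ρ (Fin.castAdd s e)) (φ k') w₁ := by
    intro k' hk'
    choose γ ch μ τ J hl hp using hall
    have h1 := H884.S.stp_neg hst hχ (fun e => hM _) hNef hm (fun e => hρ _) hsum hv hO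
      (fun e => (htw _).lb) (fun e => (htw _).hQ) (fun e => (htw _).iso) (fun e => hVL _) hl
      (k₀ := k') (hp k' hk')
    omega
  exact ⟨V₁, Gc, r₁, d, nn, lm, θ, ζ, aa, b, κ, Nn, sS, σ, φ, w₁, i₀, hd1,
    fun x hx => hU₀s (hVU (hV₁ hx)), hVL, hst, fun k' => (hP' k').resolve_left (hno k')⟩

end Vale.Agent.P277.H884.SW
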